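import Mathlib

noncomputable section

namespace Vale.Agent.P252

open Matrix

/-- The bordered matrix `[[a·1 + b·xxᵀ, c·x], [c'·xᵀ, d]]`. -/
def M5 {k : ℕ} (x : Fin k → ℝ) (a b c c' d : ℝ) : Matrix (Fin (k+1)) (Fin (k+1)) ℝ :=
  Matrix.of fun i j => Fin.lastCases
    (Fin.lastCases d (fun j' => c' * x j') j)
    (fun i' => Fin.lastCases (c * x i') (fun j' => (if i' = j' then a else 0) + b * x i' * x j') j) i

variable {k : ℕ} (x : Fin k → ℝ)

@[simp] lemma M5_cc (a b c c' d : ℝ) (i j : Fin k) :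
    M5 x a b c c' d i.castSucc j.castSucc = (if i = j then a else 0) + b * x i * x j := by
  simp [M5]

@[simp] lemma M5_cl (a b c c' d : ℝ) (i : Fin k) :
    M5 x a b c c' d i.castSucc (Fin.last k) = c * x i := by simp [M5]

@[simp] lemma M5_lc (a b c c' d : ℝ) (j : Fin k) :
    M5 x a b c c' d (Fin.last k) j.castSucc = c' * x j := by simp [M5]

@[simp] lemma M5_ll (a b c c' d : ℝ) :
    M5 x a b c c' d (Fin.last k) (Fin.last k) = d := by simp [M5]

/-- Squared length. -/
def sqn : ℝ := ∑ i, x i ^ 2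

lemma M5_mul (a b c c' d A B C C' E : ℝ) :
    M5 x a b c c' d * M5 x A B C C' E =
      M5 x (a * A) (a * B + b * A + b * B * sqn x + c * C') (a * C + b * C * sqn x + c * E)
        (c' * A + c' * B * sqn x + d * C') (c' * C * sqn x + d * E) := by
  ext i j
  rw [Matrix.mul_apply, Fin.sum_univ_castSucc]
  refine Fin.lastCases ?_ (fun i => ?_) i <;> refine Fin.lastCases ?_ (fun j => ?_) j
  · simp only [M5_lc, M5_cl, M5_ll, sqn]
    rw [Finset.mul_sum]
    congr 1
    exact Finset.sum_congr rfl fun l _ => by ring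
  · simp only [M5_lc, M5_cc, M5_ll, mul_add, Finset.sum_add_distrib, mul_ite, mul_zero,
      Finset.sum_ite_eq', Finset.mem_univ, if_true]
    have : ∑ l, c' * x l * (B * x l * x j) = c' * B * sqn x * x j := by
      rw [sqn, Finset.mul_sum, Finset.sum_mul]
      exact Finset.sum_congr rfl fun l _ => by ring
    rw [this]; ring
  · simp only [M5_cc, M5_cl, M5_ll, add_mul, Finset.sum_add_distrib, ite_mul, zero_mul,
      Finset.sum_ite_eq, Finset.mem_univ, if_true]
    have : ∑ l, b * x i * x l * (C * x l) = b * C * sqn x * x i := by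
      rw [sqn, Finset.mul_sum, Finset.sum_mul]
      exact Finset.sum_congr rfl fun l _ => by ring
    rw [this]; ring
  · simp only [M5_cc, M5_cl, M5_lc, add_mul, mul_add, Finset.sum_add_distrib, ite_mul, zero_mul,
      mul_ite, mul_zero, Finset.sum_ite_eq, Finset.sum_ite_eq', Finset.mem_univ, if_true]
    have h1 : ∑ l, b * x i * x l * (B * x l * x j) = b * B * sqn x * (x i * x j) := by
      rw [sqn, Finset.mul_sum, Finset.sum_mul]
      exact Finset.sum_congr rfl fun l _ => by ring
    rw [h1]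
    split_ifs <;> ring

lemma M5_transpose (a b c c' d : ℝ) : (M5 x a b c c' d)ᵀ = M5 x a b c' c d := by
  ext i j
  refine Fin.lastCases ?_ (fun i => ?_) i <;> refine Fin.lastCases ?_ (fun j => ?_) j <;>
    simp only [Matrix.transpose_apply, M5_cc, M5_cl, M5_lc, M5_ll]
  by_cases h : i = j
  · subst h; ring
  · rw [if_neg h, if_neg (Ne.symm h)]; ring

lemma M5_one : M5 x 1 0 0 0 1 = 1 := by
  ext i j
  refine Fin.lastCases ?_ (fun i => ?_) i <;> refine Fin.lastCases ?_ (fun j => ?_) j <;>
    simp [Matrix.one_apply, Fin.castSucc_inj, eq_comm]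

lemma M5_trace (a b c c' d : ℝ) : (M5 x a b c c' d).trace = k * a + b * sqn x + d := by
  simp only [Matrix.trace, Matrix.diag, Fin.sum_univ_castSucc, M5_cc, M5_ll, if_true,
    Finset.sum_add_distrib, Finset.sum_const, Finset.card_univ, Fintype.card_fin, nsmul_eq_mul]
  rw [sqn, Finset.mul_sum]
  congr 2
  exact Finset.sum_congr rfl fun i _ => by ring

lemma M5_det_upper (γ : ℝ) : (M5 x 1 0 γ 0 1).det = 1 := by
  have : M5 x 1 0 γ 0 1 = 1 + replicateCol Unit (Fin.snoc (fun i => γ * x i) 0 : Fin (k+1) → ℝ) *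
      replicateRow Unit (Pi.single (Fin.last k) (1:ℝ)) := by
    ext i j
    refine Fin.lastCases ?_ (fun i => ?_) i <;> refine Fin.lastCases ?_ (fun j => ?_) j <;>
      simp [Matrix.one_apply, Matrix.mul_apply, Fin.castSucc_inj, eq_comm]
  rw [this, det_one_add_replicateCol_mul_replicateRow]
  simp [single_dotProduct]

lemma M5_det_xx (β : ℝ) : (M5 x 1 β 0 0 1).det = 1 + β * sqn x := by
  have : M5 x 1 β 0 0 1 = 1 + replicateCol Unit (Fin.snoc (fun i => β * x i) 0 : Fin (k+1) → ℝ) *
      replicateRow Unit (Fin.snoc x 0 : Fin (k+1) → ℝ) := by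
    ext i j
    refine Fin.lastCases ?_ (fun i => ?_) i <;> refine Fin.lastCases ?_ (fun j => ?_) j <;>
      simp [Matrix.one_apply, Matrix.mul_apply, Fin.castSucc_inj, eq_comm]
  rw [this, det_one_add_replicateCol_mul_replicateRow]
  simp only [dotProduct, Fin.sum_univ_castSucc, Fin.snoc_castSucc, Fin.snoc_last, mul_zero,
    add_zero, sqn, Finset.mul_sum]
  congr 1
  exact Finset.sum_congr rfl fun i _ => by ring

lemma M5_det {a d : ℝ} (b c c' : ℝ) (ha : a ≠ 0) (hd : d ≠ 0) :
    (M5 x a b c c' d).det = a ^ k * d * (1 + (b - c * c' / d) / a * sqn x) := by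
  have e : M5 x a b c c' d = M5 x 1 0 (c/d) 0 1 * (M5 x a 0 0 0 d *
      M5 x 1 ((b - c * c' / d) / a) 0 0 1) * M5 x 1 0 0 (c'/d) 1 := by
    rw [M5_mul, M5_mul, M5_mul]
    congr 1 <;> field_simp <;> ring
  have hdiag : M5 x a 0 0 0 d =
      Matrix.diagonal (Fin.snoc (fun _ => a) d : Fin (k+1) → ℝ) := by
    ext i j
    refine Fin.lastCases ?_ (fun i => ?_) i <;> refine Fin.lastCases ?_ (fun j => ?_) j <;>
      simp [Matrix.diagonal_apply, Fin.castSucc_inj, eq_comm]
  rw [e, det_mul, det_mul, det_mul, M5_det_upper, ← det_transpose (M5 x 1 0 0 (c'/d) 1),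
    M5_transpose, M5_det_upper, M5_det_xx, hdiag, det_diagonal, Fin.prod_univ_castSucc]
  simp

lemma M5_posDef {a b c d : ℝ} (ha : 0 < a) (hd : 0 < d)
    (hD : 0 < a * d + sqn x * (b * d - c * c)) : (M5 x a b c c d).PosDef := by
  refine Matrix.PosDef.of_dotProduct_mulVec_pos ?_ fun z hz => ?_
  · rw [Matrix.IsHermitian, Matrix.conjTranspose_eq_transpose_of_trivial, M5_transpose]
  set t := z (Fin.last k)
  set m := ∑ i, x i * z i.castSucc with hm
  set N := ∑ i : Fin k, z i.castSucc ^ 2 with hN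
  have eq : star z ⬝ᵥ (M5 x a b c c d *ᵥ z) = a * N + b * (m * m) + 2 * c * m * t + d * t * t := by
    simp only [star_trivial, dotProduct, Matrix.mulVec, Fin.sum_univ_castSucc, M5_cc, M5_cl,
      M5_lc, M5_ll, add_mul, Finset.sum_add_distrib, ite_mul, zero_mul, Finset.sum_ite_eq,
      Finset.mem_univ, if_true]
    have h1 : ∀ i, ∑ j, b * x i * x j * z j.castSucc = b * x i * m := fun i => by
      rw [hm, Finset.mul_sum]; exact Finset.sum_congr rfl fun j _ => by ring
    have h2 : ∑ j, c * x j * z j.castSucc = c * m := by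
      rw [hm, Finset.mul_sum]; exact Finset.sum_congr rfl fun j _ => by ring
    simp only [h1, h2, mul_add, Finset.sum_add_distrib]
    have e1 : ∑ i : Fin k, z i.castSucc * (a * z i.castSucc) = a * N := by
      rw [hN, Finset.mul_sum]; exact Finset.sum_congr rfl fun j _ => by ring
    have e2 : ∑ i : Fin k, z i.castSucc * (b * x i * m) = b * (m * m) := by
      conv_rhs => rw [hm, Finset.sum_mul, Finset.mul_sum]
      exact Finset.sum_congr rfl fun j _ => by ring
    have e3 : ∑ i : Fin k, z i.castSucc * (c * x i * t) = c * m * t := by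
      rw [hm, Finset.mul_sum, Finset.sum_mul]; exact Finset.sum_congr rfl fun j _ => by ring
    rw [e1, e2, e3]; ring
  have hN0 : 0 ≤ N := Finset.sum_nonneg fun i _ => sq_nonneg _
  have hcs : m * m ≤ sqn x * N := by
    have := Finset.sum_mul_sq_le_sq_mul_sq Finset.univ x (fun i : Fin k => z i.castSucc)
    rw [← pow_two]
    exact this
  rw [eq]
  by_contra hneg
  push Not at hneg
  have key : 0 ≥ (d * t + c * m) ^ 2 + (a * d * N + (b * d - c * c) * (m * m)) := by
    nlinarith [mul_le_mul_of_nonneg_left hneg hd.le]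
  have lower : ∃ δ > 0, δ * N ≤ a * d * N + (b * d - c * c) * (m * m) := by
    rcases le_total 0 (b * d - c * c) with h | h
    · exact ⟨a * d, mul_pos ha hd, by nlinarith [mul_self_nonneg m]⟩
    · exact ⟨_, hD, by nlinarith [mul_le_mul_of_nonpos_left hcs h]⟩
  obtain ⟨δ, hδ, hl⟩ := lower
  have hN' : N = 0 := by nlinarith [sq_nonneg (d * t + c * m), mul_nonneg hδ.le hN0]
  have hz' : ∀ i : Fin k, z i.castSucc = 0 := fun i =>
    pow_eq_zero_iff two_ne_zero |>.1
      ((Finset.sum_eq_zero_iff_of_nonneg fun i _ => sq_nonneg (z (Fin.castSucc i))).1 hN' i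
        (Finset.mem_univ i))
  have hm' : m = 0 := Finset.sum_eq_zero fun i _ => by rw [hz' i, mul_zero]
  have ht : t = 0 := by
    rw [hm', hN'] at hneg
    have : t * t ≤ 0 := by nlinarith
    nlinarith [mul_self_nonneg t]
  exact hz (funext fun i => Fin.lastCases (motive := fun i => z i = (0 : Fin (k+1) → ℝ) i)
    ht hz' i)

end Vale.Agent.P252
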