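import Vale.Agent.P252.Existence

noncomputable section

namespace Vale.Agent.P252

open MeasureTheory Set
open scoped Topology ContDiff

/-- The `μ` component of the reduced vector field. -/
def Pm (k a A e : ℝ) : ℝ :=
  let q := (k + 3) / (k + 2)
  let l := 29/12 + A - a/2 + e
  l * (l + 1) * a - A * (k * l - (k + 2)) - A * (a * (1 + q * l) - k * (A - 1))
    + a / 2 * (1 + A - a)

lemma Pm_nine {a A : ℝ} (ha : 0 ≤ a) (ha' : a ≤ 9/2) (hA : 1 ≤ A) (hA' : A ≤ 7/2) :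
    Pm 9 a A 0 ≤ 0 := by
  have e : Pm 9 a A 0 = -(1169/396 * (9/2 - a) + 25/44 * (7/2 - A) + 431/264 * (9/2 - a)^2
      + 9/22 * (7/2 - A)^2 + (9/2 - a)^3/4 - 163/66 * (9/2 - a) * (7/2 - A)
      - (9/2 - a) * (7/2 - A)^2/11 - 5/11 * (9/2 - a)^2 * (7/2 - A)) := by
    unfold Pm; norm_num; ring
  rw [e, neg_nonpos]
  obtain ⟨u, hu, rfl⟩ : ∃ u, 0 ≤ u ∧ a = 9/2 - u := ⟨9/2 - a, by linarith, by ring⟩
  obtain ⟨w, hw, rfl⟩ : ∃ w, 0 ≤ w ∧ A = 7/2 - w := ⟨7/2 - A, by linarith, by ring⟩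
  simp only [sub_sub_cancel]
  have hu' : u ≤ 9/2 := by linarith
  have hw' : w ≤ 5/2 := by linarith
  rcases le_total u (4/5) with h | h
  · nlinarith [mul_nonneg hu (sub_nonneg.2 hw'), mul_nonneg hw (sub_nonneg.2 h),
      mul_nonneg (mul_nonneg hu hw) (sub_nonneg.2 hw'),
      mul_nonneg (mul_nonneg hu hw) (sub_nonneg.2 h), mul_nonneg (mul_nonneg hu hu) hu,
      sq_nonneg (2 * u - w)]
  · have hgw : 25/44 + 9/11 * (5/2) - 163/66 * u - 2/11 * u * (5/2) - 5/11 * u^2 ≤ 0 := by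
      nlinarith
    have hg : 0 ≤ 1169/396 * u + 25/44 * (5/2) + 431/264 * u^2
      + 9/22 * (5/2)^2 + u^3/4 - 163/66 * u * (5/2)
      - u * (5/2)^2/11 - 5/11 * u^2 * (5/2) := by
      nlinarith [mul_nonneg hu (sq_nonneg (u - 5/3)), sq_nonneg (u - 5/3),
        mul_nonneg hu (sq_nonneg (u - 3/2)), sq_nonneg (u - 8/5)]
    nlinarith [mul_nonneg_of_nonpos_of_nonpos hgw (sub_nonpos.2 hw'),
      mul_nonneg (sub_nonneg.2 hu') (sq_nonneg (w - 5/2))]

lemma Pm_le {k a A : ℝ} (hk : 9 ≤ k) (ha : 0 ≤ a) (ha' : a ≤ 9/2) (hA : 1 ≤ A) (hA' : A ≤ 7/2) :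
    Pm k a A 0 ≤ 0 := by
  have h9 := Pm_nine ha ha' hA hA'
  set l := 29/12 + A - a/2 with hl
  have hl0 : 0 ≤ l := by rw [hl]; linarith
  have hd : 12/11 - (k + 3)/(k + 2) ≤ (k - 9)/121 := by
    rw [show (12:ℝ)/11 - (k + 3)/(k + 2) = (k - 9)/(11 * (k + 2)) by field_simp; ring]
    exact div_le_div_of_nonneg_left (by linarith) (by norm_num) (by linarith)
  have e : Pm k a A 0 = Pm 9 a A 0 - (k - 9) * A * (l - A)
      + (12/11 - (k + 3)/(k + 2)) * (a * l * A) := by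
    unfold Pm; simp only [hl]; norm_num; ring
  have h1 : a * l ≤ 121 * (l - A) := by
    rw [hl]
    nlinarith [mul_le_mul_of_nonneg_left hA' ha, mul_nonneg ha ha]
  have h2 := mul_le_mul_of_nonneg_right hd
    (mul_nonneg (mul_nonneg ha hl0) (le_trans zero_le_one hA))
  have h3 := mul_le_mul_of_nonneg_left h1
    (mul_nonneg (by linarith : (0:ℝ) ≤ k - 9) (le_trans zero_le_one hA))
  nlinarith

lemma A_face {k a A e x y z : ℝ} (hk : 9 ≤ k) (ha : 0 ≤ a) (hA : 7/2 ≤ A)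
    (hx : a - 9/2 ≤ x) (hx0 : 0 ≤ x) (hy : A - 7/2 = y) (hz : e ≤ z) :
    a * (1 + (k + 3)/(k + 2) * (29/12 + A - a/2 + e)) - k * (A - 1) ≤
      5 * x + 2 * a * y + 2 * a * (max z 0) := by
  set q := (k + 3)/(k + 2) with hq
  have hq1 : 1 ≤ q := by rw [hq, le_div_iff₀ (by linarith)]; linarith
  have hq2 : q ≤ 12/11 := by rw [hq, div_le_iff₀ (by linarith)]; linarith
  have hmain : a * (1 + q * (71/12 - a/2)) ≤ 45/2 + 5 * x := by
    rcases le_total a (9/2) with h | h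
    · nlinarith [mul_le_mul_of_nonneg_right hq2
        (mul_nonneg ha (by linarith : (0:ℝ) ≤ 71/12 - a/2)), mul_nonneg (sub_nonneg.2 h) ha,
        sub_nonneg.2 h]
    · rcases le_total (71/12 - a/2) 0 with h' | h'
      · nlinarith [mul_nonneg ha (mul_nonneg (by linarith : (0:ℝ) ≤ q) (neg_nonneg.2 h'))]
      · nlinarith [mul_le_mul_of_nonneg_right hq2 (mul_nonneg ha h'),
          mul_nonneg ha (sub_nonneg.2 h)]
  have h1 : q * (a * y) ≤ 2 * (a * y) :=
    mul_le_mul_of_nonneg_right (by linarith) (mul_nonneg ha (by linarith))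
  have h2 : q * (a * e) ≤ 2 * (a * max z 0) :=
    le_trans (mul_le_mul_of_nonneg_left (mul_le_mul_of_nonneg_left
      (hz.trans (le_max_left _ _)) ha) (by linarith))
      (mul_le_mul_of_nonneg_right (by linarith) (mul_nonneg ha (le_max_right _ _)))
  have h3 : 45/2 ≤ k * (A - 1) := by nlinarith
  subst hy
  nlinarith

lemma hasDerivAt_pos_sq (x : ℝ) : HasDerivAt (fun x => (max x 0) ^ 2) (2 * max x 0) x := by
  rcases lt_trichotomy x 0 with h | h | h
  · have : (fun x : ℝ => (max x 0) ^ 2) =ᶠ[𝓝 x] fun _ => (0:ℝ) := by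
      filter_upwards [Iio_mem_nhds h] with t ht
      rw [max_eq_right (le_of_lt ht)]; norm_num
    rw [max_eq_right h.le, mul_zero]
    exact (hasDerivAt_const x (0:ℝ)).congr_of_eventuallyEq this
  · subst h
    rw [hasDerivAt_iff_isLittleO]
    simp only [max_self, ne_eq, OfNat.ofNat_ne_zero, not_false_eq_true, zero_pow, sub_zero,
      mul_zero, smul_zero]
    apply Asymptotics.IsBigO.trans_isLittleO (g := fun x : ℝ => x ^ 2)
    · exact Asymptotics.isBigO_of_le _ fun t => by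
        simp only [Real.norm_eq_abs, abs_pow, sq_abs]
        rcases le_total t 0 with h | h
        · rw [max_eq_right h]; simp [sq_nonneg]
        · rw [max_eq_left h]
    · exact Asymptotics.isLittleO_pow_id (by norm_num)
  · have : (fun x : ℝ => (max x 0) ^ 2) =ᶠ[𝓝 x] fun x => x ^ 2 := by
      filter_upwards [Ioi_mem_nhds h] with t ht
      rw [max_eq_left (le_of_lt ht)]
    rw [max_eq_left h.le]
    exact (by simpa using hasDerivAt_pow 2 x : HasDerivAt (fun x => x ^ 2) (2 * x) x)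
      |>.congr_of_eventuallyEq this

lemma rate_a {a A y D S : ℝ} (ha : 0 ≤ a) (haD : a ≤ D) (hy : A - 7/2 ≤ y) (hy0 : 0 ≤ y)
    (hS : y ≤ S) (h : 9/2 ≤ a) : a * (1 + A - a) ≤ D * S := by
  calc a * (1 + A - a) ≤ a * y := mul_le_mul_of_nonneg_left (by linarith) ha
    _ ≤ D * S := mul_le_mul haD hS hy0 (le_trans ha haD)

lemma rate_A {k a A e x z R : ℝ} (hk : 9 ≤ k) (ha : 0 ≤ a) (hR : 5 ≤ R) (haR : a ≤ R)
    (hAR : A ≤ R) (hx : a - 9/2 ≤ x) (hx0 : 0 ≤ x) (hz : e ≤ z) (hz0 : 0 ≤ z) (h : 7/2 ≤ A) :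
    A * (a * (1 + (k+3)/(k+2) * (29/12 + A - a/2 + e)) - k * (A - 1))
      ≤ 10 * R * R * (x + (A - 7/2) + z) := by
  have h1 := A_face hk ha h hx hx0 rfl hz
  rw [max_eq_left hz0] at h1
  have y0 : 0 ≤ A - 7/2 := by linarith
  have h2 : 5 * x + 2 * a * (A - 7/2) + 2 * a * z ≤ 10 * R * (x + (A - 7/2) + z) := by
    nlinarith [mul_le_mul_of_nonneg_right haR y0, mul_le_mul_of_nonneg_right haR hz0,
      mul_le_mul_of_nonneg_right hR hx0, mul_nonneg (by linarith : (0:ℝ) ≤ R) y0,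
      mul_nonneg (by linarith : (0:ℝ) ≤ R) hz0]
  calc _ ≤ A * (10 * R * (x + (A - 7/2) + z)) :=
        mul_le_mul_of_nonneg_left (h1.trans h2) (by linarith)
    _ ≤ R * (10 * R * (x + (A - 7/2) + z)) := mul_le_mul_of_nonneg_right hAR
        (mul_nonneg (by linarith) (by linarith))
    _ = _ := by ring

lemma rate_m {k R : ℝ} (hk : 9 ≤ k) (hR : 5 ≤ R) :
    ∃ K : ℝ, 0 ≤ K ∧ ∀ a A e x y z : ℝ, 0 ≤ a → 1 ≤ A → a ≤ R → A ≤ R → |e| ≤ R → 0 ≤ e →
      a - 9/2 ≤ x → 0 ≤ x → A - 7/2 ≤ y → 0 ≤ y → e ≤ z →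
      Pm k a A e ≤ K * (x + y + z) := by
  let Φ : ℝ × (ℝ × ℝ) → ℝ := fun z => Pm k z.1 z.2.1 z.2.2
  have hΦ : ContDiff ℝ 1 Φ := by simp only [Φ, Pm]; fun_prop
  obtain ⟨K, hK⟩ := hΦ.locallyLipschitz.locallyLipschitzOn.exists_lipschitzOnWith_of_compact
    (isCompact_closedBall (0 : ℝ × (ℝ × ℝ)) R)
  refine ⟨K, K.coe_nonneg, fun a A e x y z a0 A1 aR AR eR e0 hx x0 hy y0 hz => ?_⟩
  have p0 := Pm_le hk (a := min a (9/2)) (A := min A (7/2)) (le_min a0 (by norm_num))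
    (min_le_right _ _) (le_min A1 (by norm_num)) (min_le_right _ _)
  have m1 : (a, (A, e)) ∈ Metric.closedBall (0 : ℝ × (ℝ × ℝ)) R := by
    simp only [mem_closedBall_zero_iff, Prod.norm_def, max_le_iff, Real.norm_eq_abs]
    exact ⟨by rwa [abs_of_nonneg a0], by rwa [abs_of_nonneg (le_trans zero_le_one A1)], eR⟩
  have m2 : (min a (9/2), (min A (7/2), (0:ℝ))) ∈ Metric.closedBall (0 : ℝ × (ℝ × ℝ)) R := by
    simp only [mem_closedBall_zero_iff, Prod.norm_def, max_le_iff, Real.norm_eq_abs]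
    refine ⟨?_, ?_, by simp; linarith⟩
    · rw [abs_of_nonneg (le_min a0 (by norm_num))]; exact (min_le_left _ _).trans aR
    · rw [abs_of_nonneg (le_min (le_trans zero_le_one A1) (by norm_num))]
      exact (min_le_left _ _).trans AR
  have hl := hK.dist_le_mul _ m1 _ m2
  have e1 : |a - min a (9/2)| ≤ x := by
    rcases le_total a (9/2) with g | g
    · rw [min_eq_left g, sub_self, abs_zero]; exact x0
    · rw [min_eq_right g, abs_of_nonneg (by linarith)]; exact hx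
  have e2 : |A - min A (7/2)| ≤ y := by
    rcases le_total A (7/2) with g | g
    · rw [min_eq_left g, sub_self, abs_zero]; exact y0
    · rw [min_eq_right g, abs_of_nonneg (by linarith)]; exact hy
  have e3 : |e| ≤ z := by rwa [abs_of_nonneg e0]
  have hdist : dist (a, (A, e)) (min a (9/2), (min A (7/2), (0:ℝ))) ≤ x + y + z := by
    simp only [Prod.dist_eq, Real.dist_eq, max_le_iff, sub_zero]
    exact ⟨by linarith, by linarith, by linarith⟩
  rw [Real.dist_eq] at hl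
  have h1 := (le_abs_self _).trans (hl.trans (mul_le_mul_of_nonneg_left hdist K.coe_nonneg))
  simp only [Φ] at h1
  linarith

lemma weighted_sum {x y z D u v w : ℝ} (hx : 0 ≤ x) (hy : 0 ≤ y) (hz : 0 ≤ z) (hD : 0 ≤ D)
    (h1 : 0 < x → u ≤ D * (x + y + z)) (h2 : 0 < y → v ≤ D * (x + y + z))
    (h3 : 0 < z → w ≤ D * (x + y + z)) :
    x * u + y * v + z * w ≤ 3 * D * (x^2 + y^2 + z^2) := by
  have aux : ∀ r f : ℝ, 0 ≤ r → (0 < r → f ≤ D * (x + y + z)) →
      r * f ≤ r * (D * (x + y + z)) := by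
    intro r f hr hf
    rcases hr.eq_or_lt with rfl | hr
    · simp
    · exact mul_le_mul_of_nonneg_left (hf hr) hr.le
  have := aux x u hx h1
  have := aux y v hy h2
  have := aux z w hz h3
  have : (x + y + z) * (x + y + z) ≤ 3 * (x^2 + y^2 + z^2) := by
    nlinarith [sq_nonneg (x - y), sq_nonneg (y - z), sq_nonneg (x - z)]
  nlinarith [mul_le_mul_of_nonneg_left this hD]

/-- Invariance of the box for solutions of the reduced system. -/
lemma box_invariant {k : ℝ} (hk : 9 ≤ k) {a A e : ℝ → ℝ} {s0 t : ℝ} (hs0 : 0 < s0) (hst : s0 ≤ t)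
    (ha0 : ∀ s ∈ Icc s0 t, 0 ≤ a s) (hA1 : ∀ s ∈ Icc s0 t, 1 ≤ A s)
    (da : ∀ s ∈ Icc s0 t, HasDerivAt a (a s * (1 + A s - a s) / (2 * s)) s)
    (dA : ∀ s ∈ Icc s0 t, HasDerivAt A (A s * (a s * (1 + (k+3)/(k+2) *
      (29/12 + A s - a s / 2 + e s)) - k * (A s - 1)) / (2 * s)) s)
    (de : ∀ s ∈ Icc s0 t, HasDerivAt e (Pm k (a s) (A s) (e s) / (2 * s)) s)
    (i1 : a s0 ≤ 9/2) (i2 : A s0 ≤ 7/2) (i3 : e s0 ≤ 0) :
    a t ≤ 9/2 ∧ A t ≤ 7/2 ∧ e t ≤ 0 := by
  have ca : ContinuousOn a (Icc s0 t) := fun s hs => (da s hs).continuousAt.continuousWithinAt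
  have cA : ContinuousOn A (Icc s0 t) := fun s hs => (dA s hs).continuousAt.continuousWithinAt
  have ce : ContinuousOn e (Icc s0 t) := fun s hs => (de s hs).continuousAt.continuousWithinAt
  obtain ⟨Ra, hRa⟩ := isCompact_Icc.exists_bound_of_continuousOn ca
  obtain ⟨RA, hRA⟩ := isCompact_Icc.exists_bound_of_continuousOn cA
  obtain ⟨Re, hRe⟩ := isCompact_Icc.exists_bound_of_continuousOn ce
  obtain ⟨R, hR5, hRa', hRA', hRe'⟩ : ∃ R : ℝ, 5 ≤ R ∧ Ra ≤ R ∧ RA ≤ R ∧ Re ≤ R :=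
    ⟨max 5 (max Ra (max RA Re)), le_max_left _ _, by simp, by simp, by simp⟩
  obtain ⟨K, K0, hK⟩ := rate_m hk hR5
  let D : ℝ := 10 * R * R + R + K
  have hD0 : 0 ≤ D := by positivity
  let C : ℝ := D / s0
  let φ : ℝ → ℝ := fun s =>
    (max (a s - 9/2) 0) ^ 2 + (max (A s - 7/2) 0) ^ 2 + (max (e s) 0) ^ 2
  let d : ℝ → ℝ := fun s => 2 * max (a s - 9/2) 0 * (a s * (1 + A s - a s) / (2 * s))
      + 2 * max (A s - 7/2) 0 * (A s * (a s * (1 + (k+3)/(k+2) *
      (29/12 + A s - a s / 2 + e s)) - k * (A s - 1)) / (2 * s))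
      + 2 * max (e s) 0 * (Pm k (a s) (A s) (e s) / (2 * s))
  have hd : ∀ s ∈ Icc s0 t, HasDerivAt φ (d s) s := fun s hs =>
    (((hasDerivAt_pos_sq _).comp s ((da s hs).sub_const (9/2))).add
      ((hasDerivAt_pos_sq _).comp s ((dA s hs).sub_const (7/2)))).add
      ((hasDerivAt_pos_sq _).comp s (de s hs))
  have bound : ∀ s ∈ Icc s0 t, d s ≤ 3 * C * φ s := by
    intro s hs
    have hspos : 0 < s := lt_of_lt_of_le hs0 hs.1
    have a0 := ha0 s hs
    have A1 := hA1 s hs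
    have aR : a s ≤ R := ((le_abs_self _).trans (hRa s hs)).trans hRa'
    have AR : A s ≤ R := ((le_abs_self _).trans (hRA s hs)).trans hRA'
    have eR : |e s| ≤ R := (hRe s hs).trans hRe'
    have hx := le_max_left (a s - 9/2) 0
    have hy := le_max_left (A s - 7/2) 0
    have hz := le_max_left (e s) 0
    have x0 := le_max_right (a s - 9/2) 0
    have y0 := le_max_right (A s - 7/2) 0
    have z0 := le_max_right (e s) 0
    have DR : R ≤ D := by simp only [D]; nlinarith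
    have DR2 : 10 * R * R ≤ D := by simp only [D]; linarith
    have DK : K ≤ D := by simp only [D]; nlinarith
    have hsum := weighted_sum x0 y0 z0 hD0 (u := a s * (1 + A s - a s))
      (v := A s * (a s * (1 + (k+3)/(k+2) * (29/12 + A s - a s / 2 + e s)) - k * (A s - 1)))
      (w := Pm k (a s) (A s) (e s))
      (fun h => rate_a a0 (aR.trans DR) hy y0 (by linarith)
        (by rcases max_cases (a s - 9/2) 0 with ⟨_, h'⟩ | ⟨h', _⟩ <;> linarith))
      (fun h => by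
        rcases max_cases (A s - 7/2) 0 with ⟨h', h''⟩ | ⟨h', _⟩
        · rw [h']
          exact (rate_A hk a0 hR5 aR AR hx x0 hz z0 (by linarith)).trans
            (mul_le_mul_of_nonneg_right DR2 (by linarith))
        · linarith)
      (fun h => by
        rcases max_cases (e s) 0 with ⟨h', h''⟩ | ⟨h', _⟩
        · exact (hK _ _ _ _ _ _ a0 A1 aR AR eR h'' hx x0 hy y0 hz).trans
            (mul_le_mul_of_nonneg_right DK (by linarith))
        · linarith)
    have hφ0 : 0 ≤ 3 * D * φ s := mul_nonneg (by linarith) (by positivity)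
    calc d s = (max (a s - 9/2) 0 * (a s * (1 + A s - a s)) + max (A s - 7/2) 0 *
        (A s * (a s * (1 + (k+3)/(k+2) *
        (29/12 + A s - a s / 2 + e s)) - k * (A s - 1)))
        + max (e s) 0 * Pm k (a s) (A s) (e s)) / s := by
          simp only [d]; field_simp
      _ ≤ 3 * D * φ s / s := by gcongr
      _ ≤ 3 * D * φ s / s0 := div_le_div_of_nonneg_left hφ0 hs0 hs.1
      _ = 3 * C * φ s := by simp only [C]; ring
  let ψ : ℝ → ℝ := fun s => φ s * Real.exp (-(3 * C * s))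
  have dψ : ∀ s ∈ Icc s0 t, HasDerivAt ψ ((d s - 3 * C * φ s) * Real.exp (-(3 * C * s))) s :=
    fun s hs => ((hd s hs).mul (((hasDerivAt_id s).const_mul (3 * C)).neg.exp)).congr_deriv
      (by simp only [id, Pi.neg_apply, mul_one]; ring)
  have anti : AntitoneOn ψ (Icc s0 t) :=
    antitoneOn_of_hasDerivWithinAt_nonpos (convex_Icc _ _)
      (fun s hs => (dψ s hs).continuousAt.continuousWithinAt)
      (fun s hs => (dψ s (interior_subset hs)).hasDerivWithinAt)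
      (fun s hs => mul_nonpos_of_nonpos_of_nonneg
        (by linarith [bound s (interior_subset hs)]) (Real.exp_pos _).le)
  have h0 : ψ s0 = 0 := by
    simp [ψ, φ, max_eq_right (sub_nonpos.2 i1), max_eq_right (sub_nonpos.2 i2), max_eq_right i3]
  have h1 : φ t * Real.exp (-(3 * C * t)) ≤ 0 :=
    h0 ▸ anti (left_mem_Icc.2 hst) (right_mem_Icc.2 hst) hst
  have h2 : φ t ≤ 0 := by
    by_contra h
    have := mul_pos (not_le.1 h) (Real.exp_pos (-(3 * C * t)))
    linarith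
  have e1 := le_max_left (a t - 9/2) 0
  have e2 := le_max_left (A t - 7/2) 0
  have e3 := le_max_left (e t) 0
  refine ⟨?_, ?_, ?_⟩ <;>
  · simp only [φ] at h2
    nlinarith [sq_nonneg (max (a t - 9/2) 0), sq_nonneg (max (A t - 7/2) 0),
      sq_nonneg (max (e t) 0)]

end Vale.Agent.P252
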