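import Vale.Agent.P252.Defs
import Vale.Agent.P252.Algebra

noncomputable section

namespace Vale.Agent.P252

open Matrix

/-- Squared length of the first `k` coordinates. -/
def sq (k : ℕ) (z : Fin (k+1) → ℝ) : ℝ := ∑ i : Fin k, z i.castSucc ^ 2

/-- The first `k` coordinates. -/
def fst (k : ℕ) (z : Fin (k+1) → ℝ) : Fin k → ℝ := fun i => z i.castSucc

lemma sqn_fst (k : ℕ) (z : Fin (k+1) → ℝ) : sqn (fst k z) = sq k z := rfl

lemma sq_nonneg' (k : ℕ) (z : Fin (k+1) → ℝ) : 0 ≤ sq k z :=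
  Finset.sum_nonneg fun _ _ => sq_nonneg _

lemma sq_hasFDerivAt (k : ℕ) (z : Fin (k+1) → ℝ) :
    HasFDerivAt (sq k) (∑ i : Fin k, (2 * z i.castSucc) •
      ContinuousLinearMap.proj (R := ℝ) (φ := fun _ : Fin (k+1) => ℝ) i.castSucc) z := by
  unfold sq
  apply HasFDerivAt.fun_sum
  intro i _
  have := (hasFDerivAt_apply (𝕜 := ℝ) i.castSucc z).pow 2
  simpa using this

lemma pd_radial {k : ℕ} {F : ℝ × ℝ → ℝ} {z : Fin (k+1) → ℝ} {a b : ℝ}
    (hd : DifferentiableAt ℝ F (sq k z, z (Fin.last k)))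
    (ha : HasDerivAt (fun s => F (s, z (Fin.last k))) a (sq k z))
    (hb : HasDerivAt (fun y => F (sq k z, y)) b (z (Fin.last k))) :
    DifferentiableAt ℝ (fun z => F (sq k z, z (Fin.last k))) z ∧
    (∀ i : Fin k, pd i.castSucc (fun z => F (sq k z, z (Fin.last k))) z = 2 * z i.castSucc * a) ∧
    pd (Fin.last k) (fun z => F (sq k z, z (Fin.last k))) z = b := by
  have hg := (sq_hasFDerivAt k z).prodMk (hasFDerivAt_apply (𝕜 := ℝ) (Fin.last k) z)
  have h := hd.hasFDerivAt.comp z hg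
  set L := fderiv ℝ F (sq k z, z (Fin.last k)) with hL
  have ea : L (1, 0) = a :=
    (hd.hasFDerivAt.comp_hasDerivAt (sq k z)
      ((hasDerivAt_id (sq k z)).prodMk (hasDerivAt_const (sq k z) (z (Fin.last k))))).unique ha
  have eb : L (0, 1) = b :=
    (hd.hasFDerivAt.comp_hasDerivAt (z (Fin.last k))
      ((hasDerivAt_const (z (Fin.last k)) (sq k z)).prodMk
        (hasDerivAt_id (z (Fin.last k))))).unique hb
  have lin : ∀ p q : ℝ, L (p, q) = p * a + q * b := fun p q => by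
    have : (p, q) = p • ((1:ℝ), (0:ℝ)) + q • ((0:ℝ), (1:ℝ)) := by simp
    rw [this, map_add, map_smul, map_smul, ea, eb]; simp
  refine ⟨h.differentiableAt, fun i => ?_, ?_⟩
  · rw [pd, show fderiv ℝ (fun z => F (sq k z, z (Fin.last k))) z = _ from h.fderiv]
    simp only [ContinuousLinearMap.coe_comp, Function.comp, ContinuousLinearMap.prod_apply,
      FunLike.coe_sum, Finset.sum_apply, FunLike.coe_smul,
      Pi.smul_apply, ContinuousLinearMap.proj_apply, smul_eq_mul]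
    rw [lin]
    simp [Pi.single_apply, Fin.castSucc_inj, eq_comm]
  · rw [pd, show fderiv ℝ (fun z => F (sq k z, z (Fin.last k))) z = _ from h.fderiv]
    simp only [ContinuousLinearMap.coe_comp, Function.comp, ContinuousLinearMap.prod_apply,
      FunLike.coe_sum, Finset.sum_apply, FunLike.coe_smul,
      Pi.smul_apply, ContinuousLinearMap.proj_apply, smul_eq_mul]
    rw [lin]
    simp

lemma hess_radial {k : ℕ} {F Fs Fy : ℝ × ℝ → ℝ} (hF : Differentiable ℝ F)
    (hFs : Differentiable ℝ Fs) (hFy : Differentiable ℝ Fy)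
    (d1 : ∀ s y, HasDerivAt (fun s => F (s, y)) (Fs (s, y)) s)
    (d2 : ∀ s y, HasDerivAt (fun y => F (s, y)) (Fy (s, y)) y)
    (z : Fin (k+1) → ℝ) {Fss Fsy Fys Fyy : ℝ}
    (d11 : HasDerivAt (fun s => Fs (s, z (Fin.last k))) Fss (sq k z))
    (d12 : HasDerivAt (fun y => Fs (sq k z, y)) Fsy (z (Fin.last k)))
    (d21 : HasDerivAt (fun s => Fy (s, z (Fin.last k))) Fys (sq k z))
    (d22 : HasDerivAt (fun y => Fy (sq k z, y)) Fyy (z (Fin.last k))) :
    hess (fun z => F (sq k z, z (Fin.last k))) z =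
      M5 (fst k z) (2 * Fs (sq k z, z (Fin.last k))) (4 * Fss) (2 * Fys) (2 * Fsy) Fyy := by
  obtain ⟨hds, hs1, hs2⟩ := pd_radial (hFs _) d11 d12
  obtain ⟨hdy, hy1, hy2⟩ := pd_radial (hFy _) d21 d22
  have e1 : ∀ j : Fin k, pd j.castSucc (fun z => F (sq k z, z (Fin.last k))) =
      fun z => 2 * z j.castSucc * Fs (sq k z, z (Fin.last k)) :=
    fun j => funext fun w => (pd_radial (hF _) (d1 _ _) (d2 _ _)).2.1 j
  have e2 : pd (Fin.last k) (fun z => F (sq k z, z (Fin.last k))) =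
      fun z => Fy (sq k z, z (Fin.last k)) :=
    funext fun w => (pd_radial (hF _) (d1 _ _) (d2 _ _)).2.2
  have prod : ∀ (i : Fin (k+1)) (j : Fin k),
      pd i (fun z => 2 * z j.castSucc * Fs (sq k z, z (Fin.last k))) z =
        (if i = j.castSucc then 2 else 0) * Fs (sq k z, z (Fin.last k))
          + 2 * z j.castSucc * pd i (fun z => Fs (sq k z, z (Fin.last k))) z := by
    intro i j
    have h := ((hasFDerivAt_apply (𝕜 := ℝ) j.castSucc z).const_mul 2).mul hds.hasFDerivAt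
    rw [pd, pd, show fderiv ℝ (fun z => 2 * z j.castSucc * Fs (sq k z, z (Fin.last k))) z = _
      from h.fderiv]
    simp only [FunLike.coe_add, FunLike.coe_smul, Pi.add_apply, Pi.smul_apply,
      ContinuousLinearMap.proj_apply, smul_eq_mul, Pi.single_apply]
    rcases eq_or_ne i j.castSucc with h' | h'
    · subst h'; simp; ring
    · simp [h', h'.symm]
  ext i j
  simp only [hess, Matrix.of_apply]
  refine Fin.lastCases ?_ (fun i => ?_) i <;> refine Fin.lastCases ?_ (fun j => ?_) j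
  · rw [e2, hy2, M5_ll]
  · rw [e1, prod, hs2, M5_lc, if_neg (Fin.castSucc_lt_last j).ne', fst]
    ring
  · rw [e2, hy1, M5_cl, fst]; ring
  · rw [e1, prod, hs1, M5_cc]
    simp only [Fin.castSucc_inj, fst]
    split_ifs <;> ring

/-- The two-variable profile `exp (om s + e log (exp (2 p s) + y²))`. -/
def K2 (om p : ℝ → ℝ) (e : ℝ) (q : ℝ × ℝ) : ℝ :=
  Real.exp (om q.1 + e * Real.log (Real.exp (2 * p q.1) + q.2 ^ 2))

lemma Q_pos (t y : ℝ) : 0 < Real.exp t + y ^ 2 := by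
  have := Real.exp_pos t; positivity

/-- The Hessian of the profile composed with `(|x|², y)`. -/
lemma K2_hess {k : ℕ} {om ω₁ p p₁ : ℝ → ℝ} {ω₂ p₂ : ℝ} (e : ℝ)
    (hom : ∀ s, HasDerivAt om (ω₁ s) s) (hp : ∀ s, HasDerivAt p (p₁ s) s)
    (hω₁ : Differentiable ℝ ω₁) (hp₁ : Differentiable ℝ p₁)
    (z : Fin (k+1) → ℝ) (hω₂ : HasDerivAt ω₁ ω₂ (sq k z)) (hp₂ : HasDerivAt p₁ p₂ (sq k z))
    {s y ψ Q T K : ℝ} (es : s = sq k z) (ey : y = z (Fin.last k))
    (eψ : ψ = Real.exp (2 * p s)) (eQ : Q = ψ + y ^ 2)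
    (eT : T = ω₁ s + e * (2 * p₁ s * ψ) / Q) (eK : K = K2 om p e (s, y)) :
    hess (fun z => K2 om p e (sq k z, z (Fin.last k))) z =
      M5 (fst k z) (2 * (K * T))
        (4 * (K * (T ^ 2 + ω₂ + e * (((2 * p₂ + 4 * p₁ s ^ 2) * ψ) / Q
          - (2 * p₁ s * ψ) ^ 2 / Q ^ 2))))
        (2 * (K * (T * (2 * e * y / Q) - 2 * e * y * (2 * p₁ s * ψ) / Q ^ 2)))
        (2 * (K * (T * (2 * e * y / Q) - 2 * e * y * (2 * p₁ s * ψ) / Q ^ 2)))
        (K * ((2 * e * y / Q) ^ 2 + e * (2 / Q - 4 * y ^ 2 / Q ^ 2))) := by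
  subst es ey eψ eQ eT eK
  have dom : Differentiable ℝ om := fun s => (hom s).differentiableAt
  have dp : Differentiable ℝ p := fun s => (hp s).differentiableAt
  have Qne : ∀ q : ℝ × ℝ, Real.exp (2 * p q.1) + q.2 ^ 2 ≠ 0 := fun q => (Q_pos _ _).ne'
  let Fs : ℝ × ℝ → ℝ := fun q => K2 om p e q *
    (ω₁ q.1 + e * (2 * p₁ q.1 * Real.exp (2 * p q.1)) / (Real.exp (2 * p q.1) + q.2 ^ 2))
  let Fy : ℝ × ℝ → ℝ := fun q => K2 om p e q * (2 * e * q.2 / (Real.exp (2 * p q.1) + q.2 ^ 2))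
  have dp1 : Differentiable ℝ (fun q : ℝ × ℝ => p q.1) := dp.comp differentiable_fst
  have dom1 : Differentiable ℝ (fun q : ℝ × ℝ => om q.1) := dom.comp differentiable_fst
  have dp₁1 : Differentiable ℝ (fun q : ℝ × ℝ => p₁ q.1) := hp₁.comp differentiable_fst
  have dω₁1 : Differentiable ℝ (fun q : ℝ × ℝ => ω₁ q.1) := hω₁.comp differentiable_fst
  have hQd : Differentiable ℝ (fun q : ℝ × ℝ => Real.exp (2 * p q.1) + q.2 ^ 2) := by fun_prop
  have hK : Differentiable ℝ (K2 om p e) := (dom1.add ((hQd.log Qne).const_mul e)).exp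
  have hN : Differentiable ℝ (fun q : ℝ × ℝ => e * (2 * p₁ q.1 * Real.exp (2 * p q.1))) := by
    fun_prop
  have hN' : Differentiable ℝ (fun q : ℝ × ℝ => 2 * e * q.2) := by fun_prop
  have hFs : Differentiable ℝ Fs := hK.mul (dω₁1.add (hN.mul (hQd.inv Qne)))
  have hFy : Differentiable ℝ Fy := hK.mul (hN'.mul (hQd.inv Qne))
  have dψ : ∀ s, HasDerivAt (fun s => Real.exp (2 * p s)) (2 * p₁ s * Real.exp (2 * p s)) s :=
    fun s => (((hp s).const_mul 2).exp).congr_deriv (by ring)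
  have dQy : ∀ s y : ℝ, HasDerivAt (fun y => Real.exp (2 * p s) + y ^ 2) (2 * y) y := fun s y => by
    simpa using (hasDerivAt_pow 2 y).const_add (Real.exp (2 * p s))
  have d1 : ∀ s y, HasDerivAt (fun s => K2 om p e (s, y)) (Fs (s, y)) s := fun s y =>
    (((hom s).add ((((dψ s).add_const (y ^ 2)).log (Q_pos _ _).ne').const_mul e)).exp).congr_deriv
      (by simp only [Fs, K2, Pi.add_apply]; ring)
  have d2 : ∀ s y, HasDerivAt (fun y => K2 om p e (s, y)) (Fy (s, y)) y := fun s y =>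
    (((((dQy s y).log (Q_pos _ _).ne').const_mul e).const_add (om s)).exp).congr_deriv
      (by simp only [Fy, K2]; ring)
  have hQ := (Q_pos (2 * p (sq k z)) (z (Fin.last k))).ne'
  refine hess_radial hK hFs hFy d1 d2 z
    ((HasDerivAt.mul (d1 _ _) (hω₂.add ((((hp₂.const_mul 2).mul (dψ _)).const_mul e).div
      ((dψ _).add_const (z (Fin.last k) ^ 2)) hQ))).congr_deriv ?_)
    ((HasDerivAt.mul (d2 _ _) (((hasDerivAt_const _ (e * (2 * p₁ (sq k z) *
      Real.exp (2 * p (sq k z))))).div (dQy _ _) hQ).const_add (ω₁ (sq k z)))).congr_deriv ?_)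
    ((HasDerivAt.mul (d1 _ _) ((hasDerivAt_const _ (2 * e * z (Fin.last k))).div
      ((dψ _).add_const (z (Fin.last k) ^ 2)) hQ)).congr_deriv ?_)
    ((HasDerivAt.mul (d2 _ _) (((hasDerivAt_id _).const_mul (2 * e)).div
      (dQy _ _) hQ)).congr_deriv ?_)
  all_goals simp only [Fs, Fy, id, Pi.add_apply, Pi.div_apply, Pi.mul_apply]
  all_goals field_simp
  all_goals ring

end Vale.Agent.P252
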