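import Mathlib

noncomputable section

namespace Vale.Agent.P252

open Matrix

/-- Partial derivative in the coordinate direction `i`. -/
def pd {n : ℕ} (i : Fin n) (f : (Fin n → ℝ) → ℝ) (x : Fin n → ℝ) : ℝ :=
  fderiv ℝ f x (Pi.single i 1)

/-- Hessian matrix of second partial derivatives. -/
def hess {n : ℕ} (f : (Fin n → ℝ) → ℝ) (x : Fin n → ℝ) : Matrix (Fin n) (Fin n) ℝ :=
  Matrix.of fun i j => pd i (pd j f) x

/-- The function `w = (det D²u) ^ (-(n+1)/(n+2))`. -/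
def affW {n : ℕ} (u : (Fin n → ℝ) → ℝ) (x : Fin n → ℝ) : ℝ :=
  (hess u x).det ^ (-(((n:ℝ) + 1) / ((n:ℝ) + 2)))

/-- The affine maximal equation `∑ U^{ij} ∂ᵢⱼ w = 0`, with `U = det(D²u) (D²u)⁻¹`. -/
def AffineMaximal {n : ℕ} (u : (Fin n → ℝ) → ℝ) : Prop :=
  ∀ x, ∑ i, ∑ j, ((hess u x).det * (hess u x)⁻¹ i j) * hess (affW u) x i j = 0

end Vale.Agent.P252
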