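import Vale.Agent.P252.Ops

noncomputable section

namespace Vale.Agent.P252

open MeasureTheory Set
open scoped Topology BoundedContinuousFunction ContDiff

/-- The exponent `q = (n+2)/(n+1)` with `n = k+1`. -/
def qe (k : ℕ) : ℝ := ((k:ℝ) + 3) / ((k:ℝ) + 2)

/-- First source function. -/
def S1 (k : ℕ) (p v : ℝ → ℝ) (x : ℝ) : ℝ := Real.exp (p x - qe k * v x)

/-- Second source function. -/
def S2 (k : ℕ) (v : ℝ → ℝ) (x : ℝ) : ℝ := Real.exp ((1 - qe k) * v x)

/-- Logarithm of the derivative of `p`. -/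
def L1 (k : ℕ) (p v : ℝ → ℝ) (s : ℝ) : ℝ :=
  1 / (k:ℝ) * Real.log ((k:ℝ) / 2 * avg (wt k) (S1 k p v) s) - Real.log 2 - p s

/-- Logarithm of minus the derivative of `v`. -/
def L2 (k : ℕ) (p v : ℝ → ℝ) (s : ℝ) : ℝ :=
  Real.log (((k:ℝ) + 2) / 2 * avg (wt k) (S2 k v) s) - (k:ℝ) * Real.log 2
    - ((k:ℝ) - 1) * (p s + L1 k p v s) - v s

lemma avg_exp_log_diff {k : ℕ} (hk : 2 ≤ k) {f g : ℝ → ℝ} (hf : Continuous f) (hg : Continuous g)
    {c : ℝ} (hc : 0 < c) {s ε : ℝ} (h : ∀ τ ∈ Icc (0:ℝ) 1, |f (s * τ) - g (s * τ)| ≤ ε) :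
    |Real.log (c * avg (wt k) (fun x => Real.exp (f x)) s) -
      Real.log (c * avg (wt k) (fun x => Real.exp (g x)) s)| ≤ ε := by
  have key : ∀ f g : ℝ → ℝ, Continuous f → Continuous g →
      (∀ τ ∈ Icc (0:ℝ) 1, f (s * τ) ≤ g (s * τ) + ε) →
      Real.log (c * avg (wt k) (fun x => Real.exp (f x)) s) ≤
        Real.log (c * avg (wt k) (fun x => Real.exp (g x)) s) + ε := by
    intro f g hf hg h
    have p1 := avg_pos hk (F := fun x => Real.exp (f x)) (by fun_prop)
      (fun x => Real.exp_pos _) s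
    have p2 := avg_pos hk (F := fun x => Real.exp (g x)) (by fun_prop)
      (fun x => Real.exp_pos _) s
    have hm := avg_mono hk (F := fun x => Real.exp (f x))
      (G := fun x => Real.exp ε * Real.exp (g x)) (by fun_prop) (by fun_prop) (s := s) (t := s)
      (fun τ hτ => by
        rw [← Real.exp_add]; exact Real.exp_le_exp.2 (by linarith [h τ hτ]))
    rw [avg_const_mul] at hm
    have := Real.log_le_log (mul_pos hc p1) (mul_le_mul_of_nonneg_left hm hc.le)
    rw [mul_left_comm c, Real.log_mul (Real.exp_pos ε).ne' (mul_pos hc p2).ne',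
      Real.log_exp] at this
    linarith
  rw [abs_le]
  constructor
  · have := key g f hg hf (fun τ hτ => by linarith [(abs_le.1 (h τ hτ)).1])
    linarith
  · have := key f g hf hg (fun τ hτ => by linarith [(abs_le.1 (h τ hτ)).2])
    linarith

lemma S1_continuous (k : ℕ) {p v : ℝ → ℝ} (hp : Continuous p) (hv : Continuous v) :
    Continuous (S1 k p v) := by unfold S1; fun_prop

lemma S2_continuous (k : ℕ) {v : ℝ → ℝ} (hv : Continuous v) :
    Continuous (S2 k v) := by unfold S2; fun_prop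

lemma L1_contDiff {k : ℕ} (hk : 2 ≤ k) {m : ℕ} {p v : ℝ → ℝ} (hp : ContDiff ℝ m p)
    (hv : ContDiff ℝ m v) : ContDiff ℝ m (L1 k p v) := by
  have h0 : (0:ℝ) < k := by exact_mod_cast (by omega : 0 < k)
  have hS : ContDiff ℝ m (S1 k p v) := by unfold S1; fun_prop
  have hA := avg_contDiff m (wt_continuous hk) hS
  unfold L1
  refine (ContDiff.sub (ContDiff.sub (contDiff_const.mul ?_) contDiff_const) hp)
  exact (contDiff_const.mul hA).log fun x => (mul_pos (by positivity)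
    (avg_pos hk hS.continuous (fun y => Real.exp_pos _) x)).ne'

lemma L2_contDiff {k : ℕ} (hk : 2 ≤ k) {m : ℕ} {p v : ℝ → ℝ} (hp : ContDiff ℝ m p)
    (hv : ContDiff ℝ m v) : ContDiff ℝ m (L2 k p v) := by
  have h1 := L1_contDiff hk hp hv
  have hS : ContDiff ℝ m (S2 k v) := by unfold S2; fun_prop
  have hA := avg_contDiff m (wt_continuous hk) hS
  unfold L2
  refine (ContDiff.sub (ContDiff.sub (ContDiff.sub ?_ contDiff_const)
    (contDiff_const.mul (hp.add h1))) hv)
  exact (contDiff_const.mul hA).log fun x => (mul_pos (by positivity)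
    (avg_pos hk hS.continuous (fun y => Real.exp_pos _) x)).ne'

lemma L1_lip {k : ℕ} (hk : 2 ≤ k) {p p' v v' : ℝ → ℝ} (hp : Continuous p) (hp' : Continuous p')
    (hv : Continuous v) (hv' : Continuous v') {s ε : ℝ}
    (h : ∀ τ ∈ Icc (0:ℝ) 1, |p (s * τ) - p' (s * τ)| ≤ ε ∧ |v (s * τ) - v' (s * τ)| ≤ ε) :
    |L1 k p v s - L1 k p' v' s| ≤ 4 * ε := by
  have hk' : (2:ℝ) ≤ k := by exact_mod_cast hk
  have hq1 : 1 ≤ qe k := by unfold qe; rw [le_div_iff₀ (by linarith)]; linarith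
  have hq2 : qe k ≤ 2 := by unfold qe; rw [div_le_iff₀ (by linarith)]; linarith
  have he : 0 ≤ ε := le_trans (abs_nonneg _) (h 0 (by simp)).1
  have hd := avg_exp_log_diff hk (f := fun x => p x - qe k * v x)
    (g := fun x => p' x - qe k * v' x) (by fun_prop) (by fun_prop)
    (c := (k:ℝ)/2) (by linarith) (s := s) (ε := 3 * ε) (fun τ hτ => by
      obtain ⟨a, b⟩ := h τ hτ
      rw [abs_le] at a b ⊢
      constructor <;> nlinarith [mul_le_mul_of_nonneg_left b.2 (by linarith : (0:ℝ) ≤ qe k),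
        mul_le_mul_of_nonneg_left b.1 (by linarith : (0:ℝ) ≤ qe k),
        mul_le_mul_of_nonneg_right hq2 he])
  have h1 := (h 1 (by simp)).1
  rw [mul_one] at h1
  unfold L1
  unfold S1
  set A := Real.log ((k:ℝ) / 2 * avg (wt k) (fun x => Real.exp (p x - qe k * v x)) s)
  set B := Real.log ((k:ℝ) / 2 * avg (wt k) (fun x => Real.exp (p' x - qe k * v' x)) s)
  have hk1 : 1 / (k:ℝ) ≤ 1 := by rw [div_le_one (by linarith)]; linarith
  have : |1 / (k:ℝ) * (A - B)| ≤ 3 * ε := by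
    rw [abs_mul, abs_of_nonneg (by positivity : (0:ℝ) ≤ 1 / k)]
    calc _ ≤ 1 * (3 * ε) := mul_le_mul hk1 hd (abs_nonneg _) zero_le_one
      _ = _ := one_mul _
  rw [abs_le] at this h1 ⊢
  constructor <;> nlinarith

lemma L2_lip {k : ℕ} (hk : 2 ≤ k) {p p' v v' : ℝ → ℝ} (hp : Continuous p) (hp' : Continuous p')
    (hv : Continuous v) (hv' : Continuous v') {s ε : ℝ}
    (h : ∀ τ ∈ Icc (0:ℝ) 1, |p (s * τ) - p' (s * τ)| ≤ ε ∧ |v (s * τ) - v' (s * τ)| ≤ ε) :
    |L2 k p v s - L2 k p' v' s| ≤ 5 * (k:ℝ) * ε := by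
  have hk' : (2:ℝ) ≤ k := by exact_mod_cast hk
  have hq1 : 1 ≤ qe k := by unfold qe; rw [le_div_iff₀ (by linarith)]; linarith
  have hq2 : qe k ≤ 2 := by unfold qe; rw [div_le_iff₀ (by linarith)]; linarith
  have he : 0 ≤ ε := le_trans (abs_nonneg _) (h 0 (by simp)).1
  have hd := avg_exp_log_diff hk (f := fun x => (1 - qe k) * v x)
    (g := fun x => (1 - qe k) * v' x) (by fun_prop) (by fun_prop)
    (c := ((k:ℝ) + 2)/2) (by linarith) (s := s) (ε := ε) (fun τ hτ => by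
      rw [← mul_sub, abs_mul]
      calc _ ≤ 1 * ε := mul_le_mul (by rw [abs_le]; constructor <;> linarith)
            (h τ hτ).2 (abs_nonneg _) zero_le_one
        _ = ε := one_mul ε)
  have hL := L1_lip hk hp hp' hv hv' h
  obtain ⟨h1, h2⟩ := h 1 (by simp)
  rw [mul_one] at h1 h2
  unfold L2 S2
  rw [abs_le] at hd hL h1 h2 ⊢
  have k1 : (0:ℝ) ≤ (k:ℝ) - 1 := by linarith
  constructor <;> nlinarith [mul_le_mul_of_nonneg_left hL.1 k1, mul_le_mul_of_nonneg_left hL.2 k1,
    mul_le_mul_of_nonneg_left h1.1 k1, mul_le_mul_of_nonneg_left h1.2 k1]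

lemma int_exp_abs {M : ℝ} (hM : 0 < M) (s : ℝ) :
    |∫ σ in (0:ℝ)..s, Real.exp (M * |σ|)| ≤ Real.exp (M * |s|) / M := by
  have e : ∀ c : ℝ, c ≠ 0 → ∫ σ in (0:ℝ)..s, Real.exp (c * σ) = (Real.exp (c * s) - 1) / c := by
    intro c hc
    rw [intervalIntegral.integral_comp_mul_left (fun x => Real.exp x) hc, integral_exp]
    simp [div_eq_inv_mul]
  rcases le_total 0 s with hs | hs
  · have h1 : ∫ σ in (0:ℝ)..s, Real.exp (M * |σ|) = ∫ σ in (0:ℝ)..s, Real.exp (M * σ) :=
      intervalIntegral.integral_congr fun σ hσ => by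
        rw [uIcc_of_le hs] at hσ
        simp only [abs_of_nonneg hσ.1]
    rw [h1, e M hM.ne', abs_of_nonneg hs, abs_div, abs_of_pos hM]
    gcongr
    have : 1 ≤ Real.exp (M * s) := Real.one_le_exp (by positivity)
    rw [abs_of_nonneg (by linarith)]; linarith
  · have h1 : ∫ σ in (0:ℝ)..s, Real.exp (M * |σ|) = ∫ σ in (0:ℝ)..s, Real.exp (-M * σ) :=
      intervalIntegral.integral_congr fun σ hσ => by
        rw [uIcc_of_ge hs] at hσ
        simp only [abs_of_nonpos hσ.2, mul_neg, neg_mul]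
    rw [h1, e (-M) (by linarith), abs_of_nonpos hs, abs_div, abs_neg, abs_of_pos hM, mul_neg,
      ← neg_mul]
    gcongr
    have : 1 ≤ Real.exp (-M * s) := Real.one_le_exp (by nlinarith)
    rw [abs_of_nonneg (by linarith)]; linarith

/-- There is a global solution of the modified system. -/
theorem exists_pv {k : ℕ} (hk : 2 ≤ k) :
    ∃ p v : ℝ → ℝ, p 0 = 0 ∧ v 0 = 0 ∧
      (∀ m : ℕ, ContDiff ℝ m p) ∧ (∀ m : ℕ, ContDiff ℝ m v) ∧
      (∀ s, HasDerivAt p (cexp (L1 k p v s)) s) ∧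
      (∀ s, HasDerivAt v (-cexp (L2 k p v s)) s) := by
  obtain ⟨K, hK0, hK⟩ := cexp_lipschitz
  have hk' : (2:ℝ) ≤ k := by exact_mod_cast hk
  set M : ℝ := 10 * (k:ℝ) * K + 1 with hM
  have hM0 : 0 < M := by positivity
  let P : (ℝ →ᵇ ℝ × ℝ) → ℝ → ℝ := fun ψ s => Real.exp (M * |s|) * (ψ s).1
  let V : (ℝ →ᵇ ℝ × ℝ) → ℝ → ℝ := fun ψ s => Real.exp (M * |s|) * (ψ s).2
  have hP : ∀ ψ, Continuous (P ψ) := fun ψ => by simp only [P]; fun_prop
  have hV : ∀ ψ, Continuous (V ψ) := fun ψ => by simp only [V]; fun_prop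
  let f1 : (ℝ →ᵇ ℝ × ℝ) → ℝ → ℝ := fun ψ s => cexp (L1 k (P ψ) (V ψ) s)
  let f2 : (ℝ →ᵇ ℝ × ℝ) → ℝ → ℝ := fun ψ s => -cexp (L2 k (P ψ) (V ψ) s)
  have hc : Continuous cexp := (cexp_contDiff (m := 1)).continuous
  have hc0 : ∀ (ψ : ℝ →ᵇ ℝ × ℝ), Continuous (f1 ψ) ∧ Continuous (f2 ψ) := by
    intro ψ
    have a : ContDiff ℝ ((0:ℕ) : WithTop ℕ∞) (P ψ) := by
      rw [Nat.cast_zero, contDiff_zero]; exact hP ψ
    have b : ContDiff ℝ ((0:ℕ) : WithTop ℕ∞) (V ψ) := by
      rw [Nat.cast_zero, contDiff_zero]; exact hV ψ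
    exact ⟨hc.comp (L1_contDiff (m := 0) hk a b).continuous,
      (hc.comp (L2_contDiff (m := 0) hk a b).continuous).neg⟩
  let T0 : (ℝ →ᵇ ℝ × ℝ) → ℝ → ℝ × ℝ := fun ψ s =>
    (Real.exp (-(M * |s|)) * ∫ σ in (0:ℝ)..s, f1 ψ σ,
     Real.exp (-(M * |s|)) * ∫ σ in (0:ℝ)..s, f2 ψ σ)
  have hT0c : ∀ ψ, Continuous (T0 ψ) := fun ψ => by
    obtain ⟨a, b⟩ := hc0 ψ
    have a' := intervalIntegral.continuous_primitive (fun x y => a.intervalIntegrable x y) 0
      (μ := volume)
    have b' := intervalIntegral.continuous_primitive (fun x y => b.intervalIntegrable x y) 0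
      (μ := volume)
    simp only [T0]
    fun_prop
  have hT0b : ∀ ψ s, ‖T0 ψ s‖ ≤ Real.exp 3 / M := by
    intro ψ s
    have aux : ∀ f : ℝ → ℝ, (∀ x, |f x| ≤ Real.exp 3) →
        |Real.exp (-(M * |s|)) * ∫ σ in (0:ℝ)..s, f σ| ≤ Real.exp 3 / M := by
      intro f hf
      have := intervalIntegral.norm_integral_le_of_norm_le_const (a := 0) (b := s)
        (f := f) (C := Real.exp 3) (fun x _ => hf x)
      rw [Real.norm_eq_abs, sub_zero] at this
      rw [abs_mul, abs_of_pos (Real.exp_pos _)]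
      have h1 : Real.exp (-(M * |s|)) * |s| ≤ 1 / M := by
        have := Real.add_one_le_exp (M * |s|)
        rw [Real.exp_neg, inv_mul_eq_div, div_le_div_iff₀ (Real.exp_pos _) hM0]
        nlinarith
      calc _ ≤ Real.exp (-(M * |s|)) * (Real.exp 3 * |s|) :=
            mul_le_mul_of_nonneg_left this (Real.exp_pos _).le
        _ = Real.exp 3 * (Real.exp (-(M * |s|)) * |s|) := by ring
        _ ≤ Real.exp 3 * (1 / M) := mul_le_mul_of_nonneg_left h1 (Real.exp_pos _).le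
        _ = _ := by ring
    rw [Prod.norm_def, max_le_iff]
    simp only [T0, Real.norm_eq_abs]
    constructor
    · exact aux _ fun x => by
        simp only [f1, abs_of_nonneg (cexp_nonneg _)]; exact cexp_le _
    · exact aux _ fun x => by
        simp only [f2, abs_neg, abs_of_nonneg (cexp_nonneg _)]; exact cexp_le _
  let T : (ℝ →ᵇ ℝ × ℝ) → (ℝ →ᵇ ℝ × ℝ) := fun ψ =>
    BoundedContinuousFunction.ofNormedAddCommGroup (T0 ψ) (hT0c ψ) (Real.exp 3 / M) (hT0b ψ)
  have hT : ContractingWith (1/2) T := by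
    refine ⟨by norm_num, LipschitzWith.of_dist_le_mul fun ψ φ => ?_⟩
    rw [BoundedContinuousFunction.dist_le (by positivity)]
    intro s
    have hd : ∀ σ, |P ψ σ - P φ σ| ≤ Real.exp (M * |σ|) * dist ψ φ ∧
        |V ψ σ - V φ σ| ≤ Real.exp (M * |σ|) * dist ψ φ := by
      intro σ
      have h := BoundedContinuousFunction.dist_coe_le_dist (f := ψ) (g := φ) σ
      rw [Prod.dist_eq, max_le_iff, Real.dist_eq, Real.dist_eq] at h
      constructor
      · simp only [P]
        rw [← mul_sub, abs_mul, abs_of_pos (Real.exp_pos _)]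
        exact mul_le_mul_of_nonneg_left h.1 (Real.exp_pos _).le
      · simp only [V]
        rw [← mul_sub, abs_mul, abs_of_pos (Real.exp_pos _)]
        exact mul_le_mul_of_nonneg_left h.2 (Real.exp_pos _).le
    have hτ : ∀ σ, ∀ τ ∈ Icc (0:ℝ) 1,
        |P ψ (σ * τ) - P φ (σ * τ)| ≤ Real.exp (M * |σ|) * dist ψ φ ∧
        |V ψ (σ * τ) - V φ (σ * τ)| ≤ Real.exp (M * |σ|) * dist ψ φ := by
      intro σ τ hτ
      have : Real.exp (M * |σ * τ|) * dist ψ φ ≤ Real.exp (M * |σ|) * dist ψ φ := by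
        apply mul_le_mul_of_nonneg_right _ dist_nonneg
        apply Real.exp_le_exp.2
        apply mul_le_mul_of_nonneg_left _ hM0.le
        rw [abs_mul, abs_of_nonneg hτ.1]
        exact mul_le_of_le_one_right (abs_nonneg _) hτ.2
      exact ⟨(hd _).1.trans this, (hd _).2.trans this⟩
    have aux : ∀ f g : ℝ → ℝ, Continuous f → Continuous g →
        (∀ σ, |f σ - g σ| ≤ 5 * (k:ℝ) * K * dist ψ φ * Real.exp (M * |σ|)) →
        |Real.exp (-(M * |s|)) * (∫ σ in (0:ℝ)..s, f σ) -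
          Real.exp (-(M * |s|)) * ∫ σ in (0:ℝ)..s, g σ| ≤ 1/2 * dist ψ φ := by
      intro f g hf hg h
      rw [← mul_sub, ← intervalIntegral.integral_sub (hf.intervalIntegrable _ _)
        (hg.intervalIntegrable _ _), abs_mul, abs_of_pos (Real.exp_pos _)]
      have h1 := intervalIntegral.norm_integral_le_abs_of_norm_le (a := 0) (b := s)
        (f := fun σ => f σ - g σ) (μ := volume)
        (g := fun σ => 5 * (k:ℝ) * K * dist ψ φ * Real.exp (M * |σ|))
        (Filter.Eventually.of_forall fun σ => h σ)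
        ((by fun_prop : Continuous fun σ =>
          5 * (k:ℝ) * K * dist ψ φ * Real.exp (M * |σ|)).intervalIntegrable _ _)
      rw [Real.norm_eq_abs, intervalIntegral.integral_const_mul, abs_mul,
        abs_of_nonneg (by positivity : (0:ℝ) ≤ 5 * (k:ℝ) * K * dist ψ φ)] at h1
      have h2 := int_exp_abs hM0 s
      calc _ ≤ Real.exp (-(M * |s|)) * (5 * (k:ℝ) * K * dist ψ φ *
            (Real.exp (M * |s|) / M)) :=
            mul_le_mul_of_nonneg_left (h1.trans (mul_le_mul_of_nonneg_left h2 (by positivity)))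
              (Real.exp_pos _).le
        _ = 5 * (k:ℝ) * K / M * dist ψ φ := by rw [Real.exp_neg]; field_simp
        _ ≤ _ := by
          apply mul_le_mul_of_nonneg_right _ dist_nonneg
          rw [div_le_iff₀ hM0, hM]; nlinarith
    simp only [T, BoundedContinuousFunction.coe_ofNormedAddCommGroup, T0, Prod.dist_eq,
      Real.dist_eq, max_le_iff]
    refine ⟨?_, ?_⟩
    · refine (aux _ _ (hc0 ψ).1 (hc0 φ).1 fun σ => ?_).trans (le_of_eq (by simp))
      have h := L1_lip hk (hP ψ) (hP φ) (hV ψ) (hV φ) (hτ σ)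
      simp only [f1]
      refine (hK _ _).trans ?_
      calc K * |_| ≤ K * (4 * (Real.exp (M * |σ|) * dist ψ φ)) :=
            mul_le_mul_of_nonneg_left h hK0
        _ ≤ K * (5 * (k:ℝ) * (Real.exp (M * |σ|) * dist ψ φ)) := by
            gcongr; linarith
        _ = _ := by ring
    · refine (aux _ _ (hc0 ψ).2 (hc0 φ).2 fun σ => ?_).trans (le_of_eq (by simp))
      have h := L2_lip hk (hP ψ) (hP φ) (hV ψ) (hV φ) (hτ σ)
      simp only [f2]
      rw [show ∀ a b : ℝ, |(-a) - (-b)| = |a - b| from fun a b => by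
        rw [← abs_neg]; ring_nf]
      refine (hK _ _).trans ?_
      calc K * |_| ≤ K * (5 * (k:ℝ) * (Real.exp (M * |σ|) * dist ψ φ)) :=
            mul_le_mul_of_nonneg_left h hK0
        _ = _ := by ring
  have : Nonempty (ℝ →ᵇ ℝ × ℝ) := ⟨0⟩
  set ψ := ContractingWith.fixedPoint T hT
  have hfix : T ψ = ψ := ContractingWith.fixedPoint_isFixedPt hT
  have eP : ∀ s, P ψ s = ∫ σ in (0:ℝ)..s, f1 ψ σ := fun s => by
    change Real.exp (M * |s|) * (ψ s).1 = _
    conv_lhs => rw [← hfix]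
    simp only [T, BoundedContinuousFunction.coe_ofNormedAddCommGroup, T0]
    rw [← mul_assoc, ← Real.exp_add, add_neg_cancel, Real.exp_zero, one_mul]
  have eV : ∀ s, V ψ s = ∫ σ in (0:ℝ)..s, f2 ψ σ := fun s => by
    change Real.exp (M * |s|) * (ψ s).2 = _
    conv_lhs => rw [← hfix]
    simp only [T, BoundedContinuousFunction.coe_ofNormedAddCommGroup, T0]
    rw [← mul_assoc, ← Real.exp_add, add_neg_cancel, Real.exp_zero, one_mul]
  have dP : ∀ s, HasDerivAt (P ψ) (f1 ψ s) s := fun s => by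
    rw [show P ψ = fun s => ∫ σ in (0:ℝ)..s, f1 ψ σ from funext eP]
    exact (hc0 ψ).1.integral_hasStrictDerivAt 0 s |>.hasDerivAt
  have dV : ∀ s, HasDerivAt (V ψ) (f2 ψ s) s := fun s => by
    rw [show V ψ = fun s => ∫ σ in (0:ℝ)..s, f2 ψ σ from funext eV]
    exact (hc0 ψ).2.integral_hasStrictDerivAt 0 s |>.hasDerivAt
  have smooth : ∀ m : ℕ, ContDiff ℝ m (P ψ) ∧ ContDiff ℝ m (V ψ) := by
    intro m
    induction m with
    | zero =>
      rw [Nat.cast_zero, contDiff_zero, contDiff_zero]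
      exact ⟨hP ψ, hV ψ⟩
    | succ m ih =>
      rw [Nat.cast_add, Nat.cast_one, contDiff_succ_iff_deriv, contDiff_succ_iff_deriv]
      refine ⟨⟨fun s => (dP s).differentiableAt, by simp, ?_⟩,
        fun s => (dV s).differentiableAt, by simp, ?_⟩
      · rw [show deriv (P ψ) = f1 ψ from funext fun s => (dP s).deriv]
        exact (cexp_contDiff (m := (m:ℕ∞))).comp (L1_contDiff hk ih.1 ih.2)
      · rw [show deriv (V ψ) = f2 ψ from funext fun s => (dV s).deriv]
        exact ((cexp_contDiff (m := (m:ℕ∞))).comp (L2_contDiff hk ih.1 ih.2)).neg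
  exact ⟨P ψ, V ψ, by rw [eP, intervalIntegral.integral_same],
    by rw [eV, intervalIntegral.integral_same], fun m => (smooth m).1, fun m => (smooth m).2,
    dP, dV⟩

end Vale.Agent.P252
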