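import Vale.Agent.P252.Solution
import Vale.Agent.P252.Calc

noncomputable section

namespace Vale.Agent.P252

open Matrix Set
open scoped Topology ContDiff

/-- The determinant combination. -/
def bigD (s a b c d : ℝ) : ℝ := a * d + s * (b * d - c * c)

lemma M5_inv {k : ℕ} (x : Fin k → ℝ) {a b c d : ℝ} (ha : a ≠ 0)
    (hD : bigD (sqn x) a b c d ≠ 0) :
    (M5 x a b c c d)⁻¹ = M5 x (1/a) (-(b * d - c * c) / (a * bigD (sqn x) a b c d))
      (-c / bigD (sqn x) a b c d) (-c / bigD (sqn x) a b c d)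
      ((a + b * sqn x) / bigD (sqn x) a b c d) := by
  apply Matrix.inv_eq_right_inv
  rw [M5_mul, ← M5_one x]
  obtain ⟨Δ, hΔ⟩ : ∃ Δ, Δ = bigD (sqn x) a b c d := ⟨_, rfl⟩
  rw [← hΔ] at hD ⊢
  unfold bigD at hΔ
  congr 1 <;> field_simp <;> (subst hΔ; ring)

lemma M5_contract {k : ℕ} (x : Fin k → ℝ) (δ a b c d A B C E : ℝ) :
    ∑ i, ∑ j, δ * M5 x a b c c d i j * M5 x A B C C E i j =
      δ * (k * (a * A) + (a * B + b * A + b * B * sqn x + c * C) * sqn x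
        + (c * C * sqn x + d * E)) := by
  have h : ∑ i, ∑ j, δ * M5 x a b c c d i j * M5 x A B C C E i j =
      δ * (M5 x a b c c d * (M5 x A B C C E)ᵀ).trace := by
    simp only [Matrix.trace, Matrix.diag, Matrix.mul_apply, Matrix.transpose_apply,
      Finset.mul_sum, mul_assoc]
  rw [h, M5_transpose, M5_mul, M5_trace]

lemma hess_coeffs {K ψ Q y p₁ R : ℝ} (hQ : Q = ψ + y ^ 2) (hQ0 : Q ≠ 0) (s : ℝ) :
    let e : ℝ := 1/2
    let T := (0:ℝ) + e * (2 * p₁ * ψ) / Q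
    let a := 2 * (K * T)
    let b := 4 * (K * (T ^ 2 + 0 + e * (((2 * (R - p₁ ^ 2) + 4 * p₁ ^ 2) * ψ) / Q
      - (2 * p₁ * ψ) ^ 2 / Q ^ 2)))
    let c := 2 * (K * (T * (2 * e * y / Q) - 2 * e * y * (2 * p₁ * ψ) / Q ^ 2))
    let d := K * ((2 * e * y / Q) ^ 2 + e * (2 / Q - 4 * y ^ 2 / Q ^ 2))
    a = 2 * K * ψ * p₁ / Q ∧ b = 4 * K * (R * ψ * Q + p₁ ^ 2 * ψ * y ^ 2) / Q ^ 2 ∧
      c = -(2 * K * y * p₁ * ψ) / Q ^ 2 ∧ d = K * ψ / Q ^ 2 ∧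
      bigD s a b c d = K ^ 2 * ψ ^ 2 * (2 * p₁ + 4 * s * R) / Q ^ 3 := by
  subst hQ
  refine ⟨?_, ?_, ?_, ?_, ?_⟩ <;> (try simp only [bigD]) <;> field_simp <;> ring

lemma contract_zero {k s y ψ Q p₁ R v₁ v₂ K W F : ℝ} (hQ : Q = ψ + y ^ 2) (hQ0 : Q ≠ 0)
    (hψ : ψ ≠ 0) (hp : p₁ ≠ 0) (hK : K ≠ 0) (hF' : F = 2 * p₁ + 4 * s * R) (hF : F ≠ 0)
    (hE : 4 * s * p₁ * (v₂ + v₁ ^ 2) + 2 * k * p₁ * v₁ + 4 * (k - 1) * s * R * v₁
      + (k + 2) * p₁ * (2 * p₁ + 4 * s * R) = 0) :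
    let a := 2 * K * ψ * p₁ / Q
    let b := 4 * K * (R * ψ * Q + p₁ ^ 2 * ψ * y ^ 2) / Q ^ 2
    let c := -(2 * K * y * p₁ * ψ) / Q ^ 2
    let d := K * ψ / Q ^ 2
    let Δ := K ^ 2 * ψ ^ 2 * F / Q ^ 3
    let e := (k + 2) / 2
    let T := (v₁ - (k + 2) * p₁) + e * (2 * p₁ * ψ) / Q
    let A := 2 * (W * T)
    let B := 4 * (W * (T ^ 2 + (v₂ - (k + 2) * (R - p₁ ^ 2))
      + e * (((2 * (R - p₁ ^ 2) + 4 * p₁ ^ 2) * ψ) / Q - (2 * p₁ * ψ) ^ 2 / Q ^ 2)))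
    let C := 2 * (W * (T * (2 * e * y / Q) - 2 * e * y * (2 * p₁ * ψ) / Q ^ 2))
    let E := W * ((2 * e * y / Q) ^ 2 + e * (2 / Q - 4 * y ^ 2 / Q ^ 2))
    k * (1/a * A) + (1/a * B + -(b * d - c * c) / (a * Δ) * A
        + -(b * d - c * c) / (a * Δ) * B * s + -c / Δ * C) * s
      + (-c / Δ * C * s + (a + b * s) / Δ * E) = 0 := by
  subst hQ
  simp only
  field_simp
  subst hF'
  linear_combination (4 * W * (ψ + y ^ 2) ^ 3) * hE

namespace Sol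

variable {k : ℕ} (X : Sol k)

/-- The derivative of `p`. -/
def p₁ (s : ℝ) : ℝ := cexp (L1 k X.p X.v s)
/-- The derivative of `v`. -/
def v₁ (s : ℝ) : ℝ := -cexp (L2 k X.p X.v s)

lemma p₁_diff (hk : 2 ≤ k) : Differentiable ℝ X.p₁ :=
  (((cexp_contDiff (m := 1))).comp
    (L1_contDiff (m := 1) hk (X.p_smooth 1) (X.v_smooth 1))).differentiable one_ne_zero

lemma v₁_diff (hk : 2 ≤ k) : Differentiable ℝ X.v₁ :=
  (((cexp_contDiff (m := 1)).comp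
    (L2_contDiff (m := 1) hk (X.p_smooth 1) (X.v_smooth 1))).differentiable one_ne_zero).neg

lemma ode (hk : 9 ≤ k) {s : ℝ} (hs : 0 ≤ s) :
    0 < X.p₁ s ∧
    (2 * Real.exp (X.p s) * X.p₁ s) ^ (k - 1) *
        (2 * X.p₁ s + 4 * s * (deriv X.p₁ s + X.p₁ s ^ 2)) = Real.exp (-(qe k * X.v s)) ∧
    4 * s * X.p₁ s * (deriv X.v₁ s + X.v₁ s ^ 2) + 2 * k * X.p₁ s * X.v₁ s
      + 4 * ((k:ℝ) - 1) * s * (deriv X.p₁ s + X.p₁ s ^ 2) * X.v₁ s
      + ((k:ℝ) + 2) * X.p₁ s * (2 * X.p₁ s + 4 * s * (deriv X.p₁ s + X.p₁ s ^ 2)) = 0 := by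
  have hk2 : 2 ≤ k := by omega
  obtain ⟨m, rfl⟩ : ∃ m, k = m + 2 := ⟨k - 2, by omega⟩
  obtain ⟨h1, h2⟩ := X.L_lt_two hk hs
  have hp0 : 0 < X.p₁ s := by rw [p₁, cexp_eq h1.le]; exact Real.exp_pos _
  have ev : ∀ᶠ t in 𝓝 s, L1 (m+2) X.p X.v t < 2 ∧ L2 (m+2) X.p X.v t < 2 :=
    (((X.L1_cont hk2).tendsto s).eventually (eventually_lt_nhds h1)).and
      (((X.L2_cont hk2).tendsto s).eventually (eventually_lt_nhds h2))
  have eB : (fun t => (2 * Real.exp (X.p t) * X.p₁ t) ^ (m + 2)) =ᶠ[𝓝 s] X.B := by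
    filter_upwards [ev] with t ht
    rw [← Real.exp_log (X.B_pos hk2 t), X.log_rel hk2, p₁, cexp_eq ht.1.le,
      Real.exp_nat_mul, Real.exp_add, Real.exp_add, Real.exp_log two_pos]
    ring
  have eC : (fun t => (2 * Real.exp (X.p t) * X.p₁ t) ^ (m + 1) * (2 * Real.exp (X.v t) * X.v₁ t))
      =ᶠ[𝓝 s] fun t => -X.C t := by
    filter_upwards [ev] with t ht
    rw [← Real.exp_log (X.C_pos hk2 t), X.logC, p₁, v₁, cexp_eq ht.1.le, cexp_eq ht.2.le]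
    push_cast
    rw [show ((m:ℝ) + 2) * Real.log 2 = Real.log 2 + ((m + 1 : ℕ) : ℝ) * Real.log 2 by
      push_cast; ring, show ((m:ℝ) + 2 - 1) = ((m + 1 : ℕ) : ℝ) by push_cast; ring]
    simp only [Real.exp_add, Real.exp_nat_mul, Real.exp_log two_pos]
    rw [mul_pow, mul_pow]
    ring
  have dp := X.p_deriv s
  have dv := X.v_deriv s
  have dp1 := (X.p₁_diff hk2 s).hasDerivAt
  have dv1 := (X.v₁_diff hk2 s).hasDerivAt
  have hS1 : ContDiff ℝ 1 (S1 (m+2) X.p X.v) := by exact_mod_cast X.S1_contDiff 1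
  have hS2 : ContDiff ℝ 1 (S2 (m+2) X.v) := by exact_mod_cast X.S2_contDiff 1
  set g := Real.exp (X.p s) with hg
  set V := Real.exp (X.v s) with hV
  set R := deriv X.p₁ s + X.p₁ s ^ 2 with hR
  set P := (2 * g * X.p₁ s) ^ m with hP
  have hgp : HasDerivAt (fun t => 2 * Real.exp (X.p t) * X.p₁ t) (2 * g * R) s :=
    (((dp.exp).const_mul 2).mul dp1).congr_deriv (by rw [hR, hg, p₁]; ring)
  have hVv : HasDerivAt (fun t => 2 * Real.exp (X.v t) * X.v₁ t)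
      (2 * V * (deriv X.v₁ s + X.v₁ s ^ 2)) s :=
    (((dv.exp).const_mul 2).mul dv1).congr_deriv (by rw [hV, v₁]; ring)
  have qB := ((avg_hasDerivAt (wt_continuous hk2) hS1 s).const_mul (((m+2:ℕ):ℝ)/2))
  have qC := ((avg_hasDerivAt (wt_continuous hk2) hS2 s).const_mul ((((m+2:ℕ):ℝ) + 2)/2)).neg
  have iB := ((hgp.pow (m + 2)).congr_of_eventuallyEq eB.symm).unique qB
  have iC := (((hgp.pow (m + 1)).mul hVv).congr_of_eventuallyEq eC.symm).unique qC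
  have oB := avg_ode hk2 hS1 s
  have oC := avg_ode hk2 hS2 s
  have vB := eB.self_of_nhds
  have vC := eC.self_of_nhds
  simp only [B, C] at vB vC
  simp only [Pi.pow_apply, Nat.add_succ_sub_one, Nat.add_zero] at iB iC vB vC
  rw [← hg] at iB iC vB vC
  rw [← hV] at iC vC
  push_cast at *
  have hne : (m:ℝ) + 2 ≠ 0 := by positivity
  have hS : S1 (m+2) X.p X.v s = g * Real.exp (-(qe (m+2) * X.v s)) := by
    rw [hg, S1, ← Real.exp_add]; ring_nf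
  have hS' : S2 (m+2) X.v s = V * Real.exp (-(qe (m+2) * X.v s)) := by
    rw [hV, S2, ← Real.exp_add]; ring_nf
  have g0 : 0 < g := Real.exp_pos _
  have V0 : 0 < V := Real.exp_pos _
  have first : (2 * g * X.p₁ s) ^ (m + 1) * (2 * X.p₁ s + 4 * s * R) =
      Real.exp (-(qe (m+2) * X.v s)) := by
    apply mul_left_cancel₀ (mul_ne_zero hne g0.ne')
    rw [pow_succ, ← hP]
    rw [pow_succ, ← hP] at iB
    rw [pow_succ, pow_succ, ← hP] at vB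
    linear_combination ((m:ℝ) + 2) * vB + 2 * s * iB + ((m:ℝ) + 2) * oB + ((m:ℝ) + 2) * hS
  refine ⟨hp0, ?_, ?_⟩
  · exact first
  · have P0 : 0 < P := pow_pos (by positivity) m
    rw [pow_succ, ← hP] at iC vC first
    apply mul_left_cancel₀ (mul_ne_zero (mul_ne_zero P0.ne' V0.ne') g0.ne')
    rw [mul_zero]
    linear_combination ((m:ℝ) + 2) / 2 * vC + s * iC - ((m:ℝ) + 4) / 2 * oC
      - ((m:ℝ) + 4) / 2 * hS' + ((m:ℝ) + 4) / 2 * V * first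

/-- The counterexample `sqrt (exp (2 p(|x|²)) + y²)`. -/
def U (z : Fin (k+1) → ℝ) : ℝ := K2 (fun _ => 0) X.p (1/2) (sq k z, z (Fin.last k))

lemma sq_contDiff {n : WithTop ℕ∞} : ContDiff ℝ n (sq k) := by unfold sq; fun_prop

lemma U_smooth : ContDiff ℝ ∞ X.U := by
  have hp : ContDiff ℝ ∞ X.p := contDiff_infty.2 X.p_smooth
  have h1 : ContDiff ℝ ∞ fun z : Fin (k+1) → ℝ =>
      Real.exp (2 * X.p (sq k z)) + z (Fin.last k) ^ 2 :=
    ((contDiff_const.mul (hp.comp sq_contDiff)).exp).add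
      ((contDiff_apply ℝ ℝ (Fin.last k)).pow 2)
  exact (contDiff_const.add (contDiff_const.mul (h1.log fun z => (Q_pos _ _).ne'))).exp

lemma U_hess (hk : 9 ≤ k) (z : Fin (k+1) → ℝ) :
    let s := sq k z
    let y := z (Fin.last k)
    let ψ := Real.exp (2 * X.p s)
    let Q := ψ + y ^ 2
    let K := Real.exp ((1/2) * Real.log Q)
    let R := deriv X.p₁ s + X.p₁ s ^ 2
    hess X.U z = M5 (fst k z) (2 * K * ψ * X.p₁ s / Q)
        (4 * K * (R * ψ * Q + X.p₁ s ^ 2 * ψ * y ^ 2) / Q ^ 2)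
        (-(2 * K * y * X.p₁ s * ψ) / Q ^ 2) (-(2 * K * y * X.p₁ s * ψ) / Q ^ 2) (K * ψ / Q ^ 2) ∧
      bigD s (2 * K * ψ * X.p₁ s / Q) (4 * K * (R * ψ * Q + X.p₁ s ^ 2 * ψ * y ^ 2) / Q ^ 2)
        (-(2 * K * y * X.p₁ s * ψ) / Q ^ 2) (K * ψ / Q ^ 2)
        = K ^ 2 * ψ ^ 2 * (2 * X.p₁ s + 4 * s * R) / Q ^ 3 ∧
      0 < 2 * X.p₁ s + 4 * s * R ∧
      (hess X.U z).det = Real.exp (-(qe k * X.v s) + ((k:ℝ) + 3) * (X.p s - (1/2) * Real.log Q))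
      := by
  intro s y ψ Q K R
  have hk2 : 2 ≤ k := by omega
  obtain ⟨hp0, hF, -⟩ := X.ode hk (sq_nonneg' k z)
  have hQ : 0 < Q := Q_pos _ _
  have h := K2_hess (k := k) (om := fun _ => 0) (ω₁ := fun _ => 0) (ω₂ := 0) (p := X.p)
    (p₁ := X.p₁) (p₂ := deriv X.p₁ s) (1/2) (fun s => hasDerivAt_const s 0) X.p_deriv
    (differentiable_const 0) (X.p₁_diff hk2) z (hasDerivAt_const _ 0)
    (X.p₁_diff hk2 _).hasDerivAt (s := s) (y := y) (ψ := ψ) (Q := Q) (K := K) rfl rfl rfl rfl rfl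
    (by simp [K2, K, Q, ψ])
  obtain ⟨ea, eb, ec, ed, eD⟩ := hess_coeffs (K := K) (ψ := ψ) (Q := Q) (y := y)
    (p₁ := X.p₁ s) (R := R) rfl hQ.ne' s
  have eR : R - X.p₁ s ^ 2 = deriv X.p₁ s := by simp only [R]; ring
  simp only [eR] at eb eD
  rw [eR] at *
  rw [ea, eb, ec, ed] at h
  rw [ea, eb, ec, ed] at eD
  have hpos : 0 < 2 * X.p₁ s + 4 * s * R := by
    have h' := Real.exp_pos (-(qe k * X.v s))
    rw [← hF] at h'
    exact (pos_iff_pos_of_mul_pos h').1 (by positivity)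
  refine ⟨h, eD, hpos, ?_⟩
  rw [show X.U = fun z => K2 (fun _ => 0) X.p (1/2) (sq k z, z (Fin.last k)) from rfl, h,
    M5_det _ _ _ _ (by positivity) (by positivity), sqn_fst]
  set a := 2 * K * ψ * X.p₁ s / Q with ha
  set b := 4 * K * (R * ψ * Q + X.p₁ s ^ 2 * ψ * y ^ 2) / Q ^ 2
  set c := -(2 * K * y * X.p₁ s * ψ) / Q ^ 2
  set d := K * ψ / Q ^ 2 with hd
  have a0 : 0 < a := by positivity
  have d0 : 0 < d := by positivity
  obtain ⟨j, hj⟩ : ∃ j, k = j + 1 := ⟨k - 1, by omega⟩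
  have e1 : a ^ k * d * (1 + (b - c * c / d) / a * s) = a ^ j * bigD s a b c d := by
    rw [hj, pow_succ, bigD]; field_simp
  rw [e1, eD]
  have hF' : (2 * Real.exp (X.p s) * X.p₁ s) ^ j * (2 * X.p₁ s + 4 * s * R) =
      Real.exp (-(qe k * X.v s)) := by
    rw [show j = k - 1 by omega]; exact hF
  have hψ : ψ = Real.exp (X.p s) ^ 2 := by
    simp only [ψ]; rw [← Real.exp_nat_mul]; norm_num
  have hK2 : K ^ 2 = Q := by
    simp only [K]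
    rw [← Real.exp_nat_mul, show ((2:ℕ):ℝ) * ((1/2) * Real.log Q) = Real.log Q by push_cast; ring]
    exact Real.exp_log hQ
  have e2 : a ^ j * (K ^ 2 * ψ ^ 2 * (2 * X.p₁ s + 4 * s * R) / Q ^ 3) =
      Real.exp (-(qe k * X.v s)) * (Real.exp (X.p s) ^ (j + 4) * (K ^ (j + 2) / Q ^ (j + 3))) := by
    rw [← hF', ha, hψ]
    simp only [mul_pow, div_pow, pow_add]
    field_simp
    ring
  rw [e2]
  have e3 : K ^ (j + 2) / Q ^ (j + 3) = 1 / K ^ (j + 4) := by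
    rw [← hK2, ← pow_mul, div_eq_div_iff (by positivity) (by positivity)]
    ring
  rw [e3, Real.exp_add]
  congr 1
  rw [show ((k:ℝ) + 3) = ((j + 4 : ℕ) : ℝ) by rw [hj]; push_cast; ring, Real.exp_nat_mul,
    Real.exp_sub, div_pow]
  simp only [K]
  ring

lemma U_affW (hk : 9 ≤ k) : affW X.U = fun z : Fin (k+1) → ℝ =>
    K2 (fun s => X.v s - ((k:ℝ) + 2) * X.p s) X.p (((k:ℝ) + 2) / 2) (sq k z, z (Fin.last k)) := by
  funext z
  rw [affW, (X.U_hess hk z).2.2.2, ← Real.exp_mul, K2]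
  congr 1
  unfold qe
  push_cast
  field_simp
  ring

lemma U_affineMaximal (hk : 9 ≤ k) : AffineMaximal X.U := by
  intro z
  have hk2 : 2 ≤ k := by omega
  obtain ⟨hh, hD, hpos, -⟩ := X.U_hess hk z
  obtain ⟨hp0, -, hE⟩ := X.ode hk (sq_nonneg' k z)
  have hQ : 0 < Real.exp (2 * X.p (sq k z)) + z (Fin.last k) ^ 2 := Q_pos _ _
  have hw := K2_hess (k := k) (om := fun s => X.v s - ((k:ℝ) + 2) * X.p s)
    (ω₁ := fun s => X.v₁ s - ((k:ℝ) + 2) * X.p₁ s)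
    (ω₂ := deriv X.v₁ (sq k z) - ((k:ℝ) + 2) * deriv X.p₁ (sq k z)) (p := X.p)
    (p₁ := X.p₁) (p₂ := deriv X.p₁ (sq k z)) (((k:ℝ) + 2) / 2)
    (fun s => (X.v_deriv s).sub ((X.p_deriv s).const_mul _)) X.p_deriv
    ((X.v₁_diff hk2).sub ((X.p₁_diff hk2).const_mul _)) (X.p₁_diff hk2) z
    ((X.v₁_diff hk2 _).hasDerivAt.sub ((X.p₁_diff hk2 _).hasDerivAt.const_mul _))
    (X.p₁_diff hk2 _).hasDerivAt rfl rfl rfl rfl rfl rfl
  rw [U_affW X hk, hw]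
  rw [hh, M5_inv, M5_contract, sqn_fst, hD]
  · have hK := (Real.exp_pos ((1/2) *
      Real.log (Real.exp (2 * X.p (sq k z)) + z (Fin.last k) ^ 2))).ne'
    have key := contract_zero (y := z (Fin.last k)) (K := Real.exp ((1/2) *
      Real.log (Real.exp (2 * X.p (sq k z)) + z (Fin.last k) ^ 2)))
      (W := K2 (fun s => X.v s - ((k:ℝ) + 2) * X.p s) X.p (((k:ℝ) + 2) / 2)
        (sq k z, z (Fin.last k))) rfl hQ.ne' (Real.exp_pos _).ne' hp0.ne' hK rfl hpos.ne' hE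
    simp only [add_sub_cancel_right] at key
    rw [key, mul_zero]
  · positivity
  · rw [sqn_fst, hD]; positivity

lemma U_posDef (hk : 9 ≤ k) (z : Fin (k+1) → ℝ) : (hess X.U z).PosDef := by
  obtain ⟨hh, hD, hpos, -⟩ := X.U_hess hk z
  obtain ⟨hp0, -, -⟩ := X.ode hk (sq_nonneg' k z)
  have hQ := Q_pos (2 * X.p (sq k z)) (z (Fin.last k))
  rw [hh]
  apply M5_posDef
  · positivity
  · positivity
  · rw [sqn_fst]
    unfold bigD at hD
    rw [hD]; positivity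

lemma U_not_quadratic : ¬ ∃ (A : Matrix (Fin (k+1)) (Fin (k+1)) ℝ) (b : Fin (k+1) → ℝ) (c : ℝ),
    ∀ x, X.U x = 1/2 * (x ⬝ᵥ A *ᵥ x) + b ⬝ᵥ x + c := by
  rintro ⟨A, b, c, h⟩
  have val : ∀ t : ℝ, X.U (Pi.single (Fin.last k) t) = Real.sqrt (1 + t ^ 2) := by
    intro t
    have : sq k (Pi.single (Fin.last k) t) = 0 := by
      simp [sq]
    rw [U, K2, this]
    simp only [X.p_zero, mul_zero, Real.exp_zero, Pi.single_eq_same, zero_add]
    rw [Real.sqrt_eq_rpow, Real.rpow_def_of_pos (by positivity)]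
    congr 1; ring
  have f : ∀ t : ℝ, Real.sqrt (1 + t ^ 2) =
      1/2 * (t * (A (Fin.last k) (Fin.last k) * t)) + b (Fin.last k) * t + c := by
    intro t
    rw [← val t, h, dotProduct_single, single_dotProduct]
    simp [Matrix.mulVec, dotProduct, Pi.single_apply]
  have h0 := f 0
  have h1 := f 1
  have h2 := f (-1)
  have h3 := f 2
  have h4 := f (-2)
  norm_num at h0 h1 h2 h3 h4
  have s2 : Real.sqrt 2 > 1.41 := by
    apply Real.lt_sqrt_of_sq_lt; norm_num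
  have s5 : Real.sqrt 5 < 2.24 := by
    rw [Real.sqrt_lt (by norm_num) (by norm_num)]; norm_num
  norm_num at s2 s5
  linarith

end Sol

theorem exists_counterexample {n : ℕ} (hn : 10 ≤ n) :
    ∃ u : (Fin n → ℝ) → ℝ, ContDiff ℝ ∞ u ∧ (∀ x, (hess u x).PosDef) ∧ AffineMaximal u ∧
      ¬ ∃ (A : Matrix (Fin n) (Fin n) ℝ) (b : Fin n → ℝ) (c : ℝ),
        ∀ x, u x = 1/2 * (x ⬝ᵥ A *ᵥ x) + b ⬝ᵥ x + c := by
  obtain ⟨k, rfl⟩ : ∃ k, n = k + 1 := ⟨n - 1, by omega⟩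
  obtain ⟨p, v, h1, h2, h3, h4, h5, h6⟩ := exists_pv (k := k) (by omega)
  let X : Sol k := ⟨p, v, h1, h2, h3, h4, h5, h6⟩
  exact ⟨X.U, X.U_smooth, X.U_posDef (by omega), X.U_affineMaximal (by omega), X.U_not_quadratic⟩

end Vale.Agent.P252
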