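import Mathlib

noncomputable section

namespace Vale.Agent.P252

open MeasureTheory Set intervalIntegral
open scoped Topology ContDiff

/-- Weighted average of `F` over the segment from `0` to `s`. -/
def avg (w F : ℝ → ℝ) (s : ℝ) : ℝ := ∫ t in (0:ℝ)..1, w t * F (s * t)

lemma avg_continuous {w F : ℝ → ℝ} (hw : Continuous w) (hF : Continuous F) :
    Continuous (avg w F) := by
  unfold avg
  apply intervalIntegral.continuous_parametric_intervalIntegral_of_continuous'
  fun_prop

lemma avg_hasDerivAt {w F : ℝ → ℝ} (hw : Continuous w) (hF : ContDiff ℝ 1 F) (s : ℝ) :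
    HasDerivAt (avg w F) (avg (fun t => w t * t) (deriv F) s) s := by
  have hd : Continuous (deriv F) := hF.continuous_deriv le_rfl
  have hc : Continuous F := hF.continuous
  obtain ⟨C, hC⟩ := ((isCompact_Icc (a := s - 1) (b := s + 1)).prod
    (isCompact_Icc (a := (0:ℝ)) (b := 1))).exists_bound_of_continuousOn
      (f := fun z : ℝ × ℝ => w z.2 * z.2 * deriv F (z.1 * z.2)) (by fun_prop)
  refine (intervalIntegral.hasDerivAt_integral_of_dominated_loc_of_deriv_le
    (F := fun x t => w t * F (x * t)) (F' := fun x t => w t * t * deriv F (x * t))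
    (bound := fun _ => C) (Icc_mem_nhds (a := s - 1) (b := s + 1) (by linarith) (by linarith))
    ?_ ?_ ?_ ?_ ?_ ?_).2
  · exact Filter.Eventually.of_forall fun x =>
      (by fun_prop : Continuous fun t => w t * F (x * t)).aestronglyMeasurable
  · exact (by fun_prop : Continuous fun t => w t * F (s * t)).intervalIntegrable _ _
  · exact (by fun_prop : Continuous fun t => w t * t * deriv F (s * t)).aestronglyMeasurable
  · refine Filter.Eventually.of_forall fun t ht x hx => ?_
    rw [uIoc_of_le zero_le_one] at ht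
    exact hC (x, t) ⟨hx, ⟨ht.1.le, ht.2⟩⟩
  · exact intervalIntegrable_const
  · refine Filter.Eventually.of_forall fun t _ x _ => ?_
    have h := ((hF.differentiable one_ne_zero).differentiableAt (x := x * t)).hasDerivAt
    have h' := h.comp x ((hasDerivAt_id x).mul_const t)
    exact (h'.const_mul (w t)).congr_deriv (by ring)

lemma avg_contDiff (m : ℕ) : ∀ {w F : ℝ → ℝ}, Continuous w → ContDiff ℝ m F →
    ContDiff ℝ m (avg w F) := by
  induction m with
  | zero =>
    intro w F hw hF
    simp only [CharP.cast_eq_zero, contDiff_zero] at hF ⊢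
    exact avg_continuous hw hF
  | succ m ih =>
    intro w F hw hF
    have h1 : ContDiff ℝ 1 F := hF.of_le (by exact_mod_cast Nat.le_add_left 1 m)
    rw [Nat.cast_add, Nat.cast_one, contDiff_succ_iff_deriv] at hF ⊢
    refine ⟨fun s => (avg_hasDerivAt hw h1 s).differentiableAt, by simp, ?_⟩
    have e : deriv (avg w F) = avg (fun t => w t * t) (deriv F) :=
      funext fun s => (avg_hasDerivAt hw h1 s).deriv
    rw [e]
    exact ih (by fun_prop) hF.2.2

/-- The weight `t ^ (k/2 - 1)`. -/
def wt (k : ℕ) (t : ℝ) : ℝ := t ^ ((k : ℝ) / 2 - 1)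

lemma wt_continuous {k : ℕ} (hk : 2 ≤ k) : Continuous (wt k) := by
  apply Real.continuous_rpow_const
  have : (2:ℝ) ≤ k := by exact_mod_cast hk
  linarith

lemma wt_nonneg (k : ℕ) {t : ℝ} (ht : 0 ≤ t) : 0 ≤ wt k t := Real.rpow_nonneg ht _

lemma integral_wt {k : ℕ} (hk : 2 ≤ k) : ∫ t in (0:ℝ)..1, wt k t = 2 / (k:ℝ) := by
  have h2 : (2:ℝ) ≤ k := by exact_mod_cast hk
  have h0 : (k:ℝ) ≠ 0 := by linarith
  unfold wt
  rw [integral_rpow (Or.inl (by linarith)), Real.one_rpow, sub_add_cancel,
    Real.zero_rpow (by positivity)]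
  field_simp
  ring

lemma avg_mono {k : ℕ} (hk : 2 ≤ k) {F G : ℝ → ℝ} (hF : Continuous F) (hG : Continuous G)
    {s t : ℝ} (h : ∀ τ ∈ Icc (0:ℝ) 1, F (s * τ) ≤ G (t * τ)) :
    avg (wt k) F s ≤ avg (wt k) G t := by
  have := wt_continuous hk
  apply intervalIntegral.integral_mono_on zero_le_one
  · exact (by fun_prop : Continuous fun u => wt k u * F (s * u)).intervalIntegrable _ _
  · exact (by fun_prop : Continuous fun u => wt k u * G (t * u)).intervalIntegrable _ _
  · intro τ hτ; exact mul_le_mul_of_nonneg_left (h τ hτ) (wt_nonneg k hτ.1)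

lemma avg_const {k : ℕ} (hk : 2 ≤ k) (c s : ℝ) :
    avg (wt k) (fun _ => c) s = c * (2 / (k:ℝ)) := by
  rw [avg, intervalIntegral.integral_mul_const, integral_wt hk, mul_comm]

lemma avg_const_mul {k : ℕ} (c : ℝ) (F : ℝ → ℝ) (s : ℝ) :
    avg (wt k) (fun x => c * F x) s = c * avg (wt k) F s := by
  unfold avg
  rw [← intervalIntegral.integral_const_mul]
  congr 1; funext t; ring

lemma avg_pos {k : ℕ} (hk : 2 ≤ k) {F : ℝ → ℝ} (hF : Continuous F) (hpos : ∀ x, 0 < F x)
    (s : ℝ) : 0 < avg (wt k) F s := by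
  obtain ⟨x0, hx0, hmin⟩ := (isCompact_Icc (a := (0:ℝ)) (b := 1)).exists_isMinOn
    (nonempty_Icc.2 zero_le_one) (f := fun t => F (s * t)) (by fun_prop)
  have h := avg_mono hk (F := fun _ => F (s * x0)) (G := F) continuous_const hF
    (s := s) (t := s) fun τ hτ => hmin hτ
  rw [avg_const hk] at h
  have : (0:ℝ) < k := by exact_mod_cast (by omega : 0 < k)
  exact lt_of_lt_of_le (mul_pos (hpos _) (by positivity)) h

lemma avg_zero {k : ℕ} (hk : 2 ≤ k) (F : ℝ → ℝ) :
    avg (wt k) F 0 = F 0 * (2 / (k:ℝ)) := by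
  simp only [avg, zero_mul]
  rw [intervalIntegral.integral_mul_const, integral_wt hk, mul_comm]

lemma avg_ode {k : ℕ} (hk : 2 ≤ k) {F : ℝ → ℝ} (hF : ContDiff ℝ 1 F) (s : ℝ) :
    (k:ℝ) / 2 * avg (wt k) F s + s * avg (fun t => wt k t * t) (deriv F) s = F s := by
  have hw := wt_continuous hk
  have hc : Continuous F := hF.continuous
  have hd : Continuous (deriv F) := hF.continuous_deriv le_rfl
  have h2 : (2:ℝ) ≤ k := by exact_mod_cast hk
  unfold avg
  rw [← intervalIntegral.integral_const_mul, ← intervalIntegral.integral_const_mul,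
    ← intervalIntegral.integral_add
      ((by fun_prop : Continuous fun t => (k:ℝ)/2 * (wt k t * F (s * t))).intervalIntegrable _ _)
      ((by fun_prop : Continuous fun t =>
        s * (wt k t * t * deriv F (s * t))).intervalIntegrable _ _)]
  rw [intervalIntegral.integral_eq_sub_of_hasDerivAt
    (f := fun t => t ^ ((k:ℝ)/2) * F (s * t))]
  · simp [Real.zero_rpow (by positivity : (k:ℝ)/2 ≠ 0)]
  · intro t ht
    rw [uIcc_of_le zero_le_one] at ht
    have h1 := Real.hasDerivAt_rpow_const (x := t) (p := (k:ℝ)/2) (Or.inr (by linarith))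
    have h3 := ((hF.differentiable one_ne_zero).differentiableAt (x := s * t)).hasDerivAt.comp t
      ((hasDerivAt_id t).const_mul s)
    refine (h1.mul h3).congr_deriv ?_
    have e : t ^ ((k:ℝ)/2) = wt k t * t := by
      unfold wt
      rw [← Real.rpow_add_one' ht.1 (by rw [sub_add_cancel]; positivity), sub_add_cancel]
    simp only [Function.comp, id, mul_one]
    rw [e]; unfold wt; ring
  · exact (by fun_prop : Continuous fun t =>
      (k:ℝ)/2 * (wt k t * F (s * t)) + s * (wt k t * t * deriv F (s * t))).intervalIntegrable _ _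

/-- A bounded, globally Lipschitz, smooth modification of `exp`. -/
def cexp (x : ℝ) : ℝ := Real.exp x * Real.smoothTransition (3 - x)

lemma cexp_contDiff {m : ℕ∞} : ContDiff ℝ m cexp :=
  Real.contDiff_exp.mul (Real.smoothTransition.contDiff.comp (contDiff_const.sub contDiff_id))

lemma cexp_eq {x : ℝ} (hx : x ≤ 2) : cexp x = Real.exp x := by
  rw [cexp, Real.smoothTransition.one_of_one_le (by linarith), mul_one]

lemma cexp_nonneg (x : ℝ) : 0 ≤ cexp x :=
  mul_nonneg (Real.exp_pos x).le (Real.smoothTransition.nonneg _)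

lemma cexp_le (x : ℝ) : cexp x ≤ Real.exp 3 := by
  rcases le_total x 3 with h | h
  · exact le_trans (mul_le_of_le_one_right (Real.exp_pos x).le
      (Real.smoothTransition.le_one _)) (Real.exp_le_exp.2 h)
  · rw [cexp, Real.smoothTransition.zero_of_nonpos (by linarith), mul_zero]
    exact (Real.exp_pos 3).le

lemma cexp_lipschitz : ∃ K : ℝ, 0 ≤ K ∧ ∀ x y, |cexp x - cexp y| ≤ K * |x - y| := by
  have hd : Differentiable ℝ cexp := (cexp_contDiff (m := 1)).differentiable one_ne_zero
  have hc : Continuous (deriv cexp) := (cexp_contDiff (m := 1)).continuous_deriv le_rfl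
  obtain ⟨C, hC⟩ := (isCompact_Icc (a := (1:ℝ)) (b := 4)).exists_bound_of_continuousOn
    hc.continuousOn
  refine ⟨max C (Real.exp 2), le_max_of_le_right (Real.exp_pos 2).le, fun x y => ?_⟩
  have hb : ∀ z, ‖deriv cexp z‖ ≤ max C (Real.exp 2) := by
    intro z
    rcases lt_or_ge z 2 with h | h
    · have : cexp =ᶠ[𝓝 z] Real.exp := by
        filter_upwards [Iio_mem_nhds h] with t ht using cexp_eq (le_of_lt ht)
      rw [this.deriv_eq, Real.deriv_exp, Real.norm_eq_abs, abs_of_pos (Real.exp_pos z)]
      exact le_max_of_le_right (Real.exp_le_exp.2 h.le)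
    · rcases le_or_gt z 4 with h' | h'
      · exact le_max_of_le_left (hC z ⟨by linarith, h'⟩)
      · have : cexp =ᶠ[𝓝 z] fun _ => (0:ℝ) := by
          filter_upwards [Ioi_mem_nhds h'] with t ht
          have ht' : (4:ℝ) < t := ht
          rw [cexp, Real.smoothTransition.zero_of_nonpos (by linarith), mul_zero]
        rw [this.deriv_eq, deriv_const, norm_zero]
        exact le_max_of_le_right (Real.exp_pos 2).le
  have := Convex.norm_image_sub_le_of_norm_deriv_le (f := cexp) (s := univ)
    (fun z _ => hd z) (fun z _ => hb z) convex_univ (mem_univ y) (mem_univ x)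
  simpa [Real.norm_eq_abs] using this

end Vale.Agent.P252
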