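import Vale.Agent.P252.Bounds

noncomputable section

namespace Vale.Agent.P252

open MeasureTheory Set
open scoped Topology ContDiff

/-- A smooth global solution of the modified system with its initial values. -/
structure Sol (k : ℕ) where
  p : ℝ → ℝ
  v : ℝ → ℝ
  p_zero : p 0 = 0
  v_zero : v 0 = 0
  p_smooth : ∀ m : ℕ, ContDiff ℝ m p
  v_smooth : ∀ m : ℕ, ContDiff ℝ m v
  p_deriv : ∀ s, HasDerivAt p (cexp (L1 k p v s)) s
  v_deriv : ∀ s, HasDerivAt v (-cexp (L2 k p v s)) s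

namespace Sol

variable {k : ℕ} (X : Sol k)

lemma p_cont : Continuous X.p := (X.p_smooth 0).continuous
lemma v_cont : Continuous X.v := (X.v_smooth 0).continuous

lemma p_mono : Monotone X.p :=
  monotone_of_deriv_nonneg (fun s => (X.p_deriv s).differentiableAt)
    (fun s => by rw [(X.p_deriv s).deriv]; exact cexp_nonneg _)

lemma v_anti : Antitone X.v :=
  antitone_of_deriv_nonpos (fun s => (X.v_deriv s).differentiableAt)
    (fun s => by rw [(X.v_deriv s).deriv]; linarith [cexp_nonneg (L2 k X.p X.v s)])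

/-- First average. -/
def B (s : ℝ) : ℝ := (k:ℝ) / 2 * avg (wt k) (S1 k X.p X.v) s
/-- Second average. -/
def C (s : ℝ) : ℝ := ((k:ℝ) + 2) / 2 * avg (wt k) (S2 k X.v) s
/-- The ratio `A`. -/
def A (s : ℝ) : ℝ := S1 k X.p X.v s / X.B s
/-- The candidate derivative of `p`. -/
def ρ (s : ℝ) : ℝ := Real.exp (L1 k X.p X.v s)
/-- The candidate of minus the derivative of `v`. -/
def σ (s : ℝ) : ℝ := Real.exp (L2 k X.p X.v s)

lemma qe_pos : 0 < qe k := by unfold qe; positivity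

lemma qe_le (hk : 9 ≤ k) : qe k ≤ 12/11 := by
  have h : (9:ℝ) ≤ k := by exact_mod_cast hk
  unfold qe
  rw [div_le_iff₀ (by linarith)]; linarith

lemma B_pos (hk : 2 ≤ k) (s : ℝ) : 0 < X.B s :=
  mul_pos (by have : (0:ℝ) < k := by exact_mod_cast (by omega : 0 < k)
              linarith)
    (avg_pos hk (S1_continuous k X.p_cont X.v_cont) (fun _ => Real.exp_pos _) s)

lemma C_pos (hk : 2 ≤ k) (s : ℝ) : 0 < X.C s :=
  mul_pos (by positivity) (avg_pos hk (S2_continuous k X.v_cont) (fun _ => Real.exp_pos _) s)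

lemma S1_mono : Monotone (S1 k X.p X.v) := fun x y h => by
  unfold S1
  apply Real.exp_le_exp.2
  have := mul_le_mul_of_nonneg_left (X.v_anti h) (qe_pos (k := k)).le
  linarith [X.p_mono h]

lemma B_le (hk : 2 ≤ k) {s : ℝ} (hs : 0 ≤ s) : X.B s ≤ S1 k X.p X.v s := by
  have h := avg_mono hk (S1_continuous k X.p_cont X.v_cont) (G := fun _ => S1 k X.p X.v s)
    continuous_const (s := s) (t := s)
    (fun τ hτ => X.S1_mono (mul_le_of_le_one_right hs hτ.2))
  rw [avg_const hk] at h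
  have h2 : (2:ℝ) ≤ k := by exact_mod_cast hk
  calc X.B s ≤ (k:ℝ)/2 * (S1 k X.p X.v s * (2/(k:ℝ))) :=
        mul_le_mul_of_nonneg_left h (by linarith)
    _ = _ := by field_simp

lemma one_le_A (hk : 2 ≤ k) {s : ℝ} (hs : 0 ≤ s) : 1 ≤ X.A s := by
  rw [A, le_div_iff₀ (X.B_pos hk s), one_mul]; exact X.B_le hk hs

lemma log_rel (hk : 2 ≤ k) (s : ℝ) :
    Real.log (X.B s) = (k:ℝ) * (L1 k X.p X.v s + Real.log 2 + X.p s) := by
  have : (k:ℝ) ≠ 0 := by exact_mod_cast (by omega : k ≠ 0)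
  unfold L1 B
  field_simp
  ring

lemma logC (s : ℝ) : Real.log (X.C s) = L2 k X.p X.v s + (k:ℝ) * Real.log 2
    + ((k:ℝ) - 1) * (X.p s + L1 k X.p X.v s) + X.v s := by
  unfold L2 C; ring

lemma S1_contDiff (m : ℕ) : ContDiff ℝ m (S1 k X.p X.v) := by
  have := X.p_smooth m
  have := X.v_smooth m
  unfold S1; fun_prop

lemma S2_contDiff (m : ℕ) : ContDiff ℝ m (S2 k X.v) := by
  have := X.v_smooth m
  unfold S2; fun_prop

lemma L1_cont (hk : 2 ≤ k) : Continuous (L1 k X.p X.v) :=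
  (L1_contDiff hk (X.p_smooth 0) (X.v_smooth 0)).continuous

lemma L2_cont (hk : 2 ≤ k) : Continuous (L2 k X.p X.v) :=
  (L2_contDiff hk (X.p_smooth 0) (X.v_smooth 0)).continuous

lemma B_hasDeriv (hk : 2 ≤ k) {s : ℝ} (hs : 0 < s) :
    HasDerivAt X.B ((k:ℝ) / 2 * ((S1 k X.p X.v s - X.B s) / s)) s := by
  have hc : ContDiff ℝ 1 (S1 k X.p X.v) := by exact_mod_cast X.S1_contDiff 1
  have h1 := (avg_hasDerivAt (wt_continuous hk) hc s).const_mul ((k:ℝ)/2)
  refine h1.congr_deriv ?_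
  have h2 := avg_ode hk hc s
  unfold B
  rw [eq_div_iff hs.ne' |>.2 (by linarith : avg (fun t => wt k t * t) (deriv (S1 k X.p X.v)) s * s
    = S1 k X.p X.v s - (k:ℝ) / 2 * avg (wt k) (S1 k X.p X.v) s)]

lemma C_hasDeriv (hk : 2 ≤ k) {s : ℝ} (hs : 0 < s) :
    HasDerivAt X.C ((((k:ℝ) + 2) / 2 * S2 k X.v s - (k:ℝ) / 2 * X.C s) / s) s := by
  have hc : ContDiff ℝ 1 (S2 k X.v) := by exact_mod_cast X.S2_contDiff 1
  have h1 := (avg_hasDerivAt (wt_continuous hk) hc s).const_mul (((k:ℝ) + 2)/2)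
  refine h1.congr_deriv ?_
  have h2 := avg_ode hk hc s
  unfold C
  rw [eq_div_iff hs.ne']
  linear_combination ((k:ℝ) + 2) / 2 * h2

lemma L1_hasDeriv (hk : 2 ≤ k) {s : ℝ} (hs : 0 < s) (hL : L1 k X.p X.v s ≤ 2) :
    HasDerivAt (L1 k X.p X.v) ((X.A s - 1) / (2 * s) - X.ρ s) s := by
  have hB := X.B_pos hk s
  have h : HasDerivAt (fun x => 1 / (k:ℝ) * Real.log (X.B x) - Real.log 2 - X.p x)
      (1 / (k:ℝ) * ((k:ℝ) / 2 * ((S1 k X.p X.v s - X.B s) / s) / X.B s) - X.ρ s) s := by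
    have := (((X.B_hasDeriv hk hs).log hB.ne').const_mul (1/(k:ℝ))).sub_const (Real.log 2)
      |>.sub (X.p_deriv s)
    rw [cexp_eq hL] at this
    exact this
  refine h.congr_deriv ?_
  have : (k:ℝ) ≠ 0 := by exact_mod_cast (by omega : k ≠ 0)
  unfold A
  field_simp

lemma A_hasDeriv (hk : 2 ≤ k) {s : ℝ} (hs : 0 < s) (hL : L1 k X.p X.v s ≤ 2)
    (hL' : L2 k X.p X.v s ≤ 2) :
    HasDerivAt X.A (X.A s * (X.ρ s + qe k * X.σ s - (k:ℝ)/2 * (X.A s - 1) / s)) s := by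
  have hB := X.B_pos hk s
  have h1 : HasDerivAt (S1 k X.p X.v) (S1 k X.p X.v s * (X.ρ s + qe k * X.σ s)) s := by
    have := ((X.p_deriv s).sub ((X.v_deriv s).const_mul (qe k))).exp
    rw [cexp_eq hL, cexp_eq hL'] at this
    exact this.congr_deriv (by simp only [Pi.sub_apply, S1, ρ, σ]; ring)
  have := h1.div (X.B_hasDeriv hk hs) hB.ne'
  refine this.congr_deriv ?_
  unfold A
  field_simp

lemma S2_rel (hk : 2 ≤ k) (s : ℝ) :
    ((k:ℝ) + 2) / 2 * S2 k X.v s / X.C s = ((k:ℝ) + 2) / 2 * (X.A s * X.ρ s / X.σ s) := by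
  have hB := X.B_pos hk s
  have hC := X.C_pos hk s
  rw [mul_div_assoc]
  congr 1
  rw [show X.A s = S1 k X.p X.v s / Real.exp (Real.log (X.B s)) by
    rw [Real.exp_log hB, A], ← Real.exp_log hC]
  unfold S1 S2 ρ σ
  rw [← Real.exp_sub, ← Real.exp_sub, ← Real.exp_add, ← Real.exp_sub, X.log_rel hk, X.logC]
  congr 1
  ring

lemma L2_hasDeriv (hk : 2 ≤ k) {s : ℝ} (hs : 0 < s) (hL : L1 k X.p X.v s ≤ 2)
    (hL' : L2 k X.p X.v s ≤ 2) :
    HasDerivAt (L2 k X.p X.v) ((((k:ℝ) + 2) / 2 * (X.A s * X.ρ s / X.σ s) - (k:ℝ)/2) / s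
      - ((k:ℝ) - 1) * ((X.A s - 1) / (2 * s)) + X.σ s) s := by
  have hC := X.C_pos hk s
  have := ((((X.C_hasDeriv hk hs).log hC.ne').sub_const ((k:ℝ) * Real.log 2)).sub
    (((X.p_deriv s).add (X.L1_hasDeriv hk hs hL)).const_mul ((k:ℝ) - 1))).sub (X.v_deriv s)
  rw [cexp_eq hL, cexp_eq hL'] at this
  refine this.congr_deriv ?_
  rw [← X.S2_rel hk]
  unfold ρ σ
  field_simp
  ring

/-- The scaled variable `a`. -/
def a (s : ℝ) : ℝ := 2 * s * X.ρ s
/-- The shifted variable `μ`. -/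
def e (s : ℝ) : ℝ := X.σ s / X.ρ s - X.A s + X.a s / 2 - 29/12

lemma a_hasDeriv (hk : 2 ≤ k) {s : ℝ} (hs : 0 < s) (hL : L1 k X.p X.v s ≤ 2) :
    HasDerivAt X.a (X.a s * (1 + X.A s - X.a s) / (2 * s)) s := by
  have := ((hasDerivAt_id s).const_mul 2).mul (X.L1_hasDeriv hk hs hL).exp
  refine this.congr_deriv ?_
  simp only [a, ρ, id]
  field_simp
  ring

lemma e_hasDeriv (hk : 2 ≤ k) {s : ℝ} (hs : 0 < s) (hL : L1 k X.p X.v s ≤ 2)
    (hL' : L2 k X.p X.v s ≤ 2) :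
    HasDerivAt X.e (Pm k (X.a s) (X.A s) (X.e s) / (2 * s)) s := by
  have hρ : 0 < X.ρ s := Real.exp_pos _
  have hσ : 0 < X.σ s := Real.exp_pos _
  have := ((((X.L2_hasDeriv hk hs hL hL').exp).div ((X.L1_hasDeriv hk hs hL).exp)
    (Real.exp_pos _).ne').sub (X.A_hasDeriv hk hs hL hL')).add
    ((X.a_hasDeriv hk hs hL).div_const 2) |>.sub_const (29/12)
  refine this.congr_deriv ?_
  have hl : 29/12 + X.A s - X.a s / 2 + X.e s = X.σ s / X.ρ s := by unfold e; ring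
  rw [Pm]
  simp only [hl]
  rw [show Real.exp (L1 k X.p X.v s) = X.ρ s from rfl,
    show Real.exp (L2 k X.p X.v s) = X.σ s from rfl]
  unfold a qe
  field_simp
  ring

lemma box_at (hk : 9 ≤ k) {t : ℝ} (ht : 0 < t)
    (hL : ∀ s ∈ Ioc 0 t, L1 k X.p X.v s ≤ 2 ∧ L2 k X.p X.v s ≤ 2) :
    X.a t ≤ 9/2 ∧ X.A t ≤ 7/2 ∧ X.e t ≤ 0 := by
  have hk2 : 2 ≤ k := by omega
  have hk9 : (9:ℝ) ≤ k := by exact_mod_cast hk
  have cρ : Continuous X.ρ := Real.continuous_exp.comp (X.L1_cont hk2)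
  have cσ : Continuous X.σ := Real.continuous_exp.comp (X.L2_cont hk2)
  have cA : Continuous X.A := by
    have h1 := S1_continuous k X.p_cont X.v_cont
    have h2 : Continuous X.B := continuous_const.mul (avg_continuous (wt_continuous hk2) h1)
    exact h1.div₀ h2 fun s => (X.B_pos hk2 s).ne'
  have ca : Continuous X.a := by unfold a; fun_prop
  have ce : Continuous X.e :=
    (((cσ.div₀ cρ fun s => (Real.exp_pos _).ne').sub cA).add (ca.div_const 2)).sub continuous_const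
  have hB0 : X.B 0 = 1 := by
    unfold B
    rw [avg_zero hk2, S1, X.p_zero, X.v_zero]
    simp only [mul_zero, sub_zero, Real.exp_zero]; field_simp
  have A0 : X.A 0 = 1 := by rw [A, hB0, S1, X.p_zero, X.v_zero]; simp
  have hC0 : X.C 0 = ((k:ℝ) + 2) / k := by
    unfold C
    rw [avg_zero hk2, S2, X.v_zero]
    simp only [mul_zero, Real.exp_zero]; field_simp
  have hl0 : X.σ 0 / X.ρ 0 = ((k:ℝ) + 2) / k := by
    have h1 := X.log_rel hk2 0
    have h2 := X.logC 0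
    rw [hB0, Real.log_one, X.p_zero] at h1
    rw [X.v_zero, X.p_zero] at h2
    have h3 : L1 k X.p X.v 0 = -Real.log 2 := by
      have : (k:ℝ) ≠ 0 := by positivity
      rcases mul_eq_zero.1 h1.symm with h | h <;> [exact absurd h this; linarith]
    rw [h3] at h2
    unfold σ ρ
    rw [← Real.exp_sub, h3, show L2 k X.p X.v 0 - -Real.log 2 = Real.log (X.C 0) by
      rw [h2]; ring, Real.exp_log (X.C_pos hk2 0), hC0]
  have e0 : X.e 0 < 0 := by
    have : X.a 0 = 0 := by simp [a]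
    unfold e
    rw [hl0, A0, this]
    have : ((k:ℝ) + 2) / k ≤ 2 := by rw [div_le_iff₀ (by linarith)]; linarith
    linarith
  have ev : ∀ᶠ s in 𝓝 (0:ℝ), X.a s < 9/2 ∧ X.A s < 7/2 ∧ X.e s < 0 :=
    ((ca.tendsto 0).eventually (eventually_lt_nhds (by simp [a]))).and
      (((cA.tendsto 0).eventually (eventually_lt_nhds (by rw [A0]; norm_num))).and
      ((ce.tendsto 0).eventually (eventually_lt_nhds e0)))
  obtain ⟨δ, hδ, hδ'⟩ := Metric.eventually_nhds_iff.1 ev
  set s0 := min (δ/2) t with hs0d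
  have hs0 : 0 < s0 := lt_min (by linarith) ht
  obtain ⟨i1, i2, i3⟩ := hδ' (show dist s0 0 < δ by
    rw [Real.dist_eq, sub_zero, abs_of_pos hs0]
    exact lt_of_le_of_lt (min_le_left _ _) (by linarith))
  refine box_invariant hk9 hs0 (min_le_right _ _) (fun s hs => ?_) (fun s hs => ?_)
    (fun s hs => ?_) (fun s hs => ?_) (fun s hs => ?_) i1.le i2.le i3.le
  · exact mul_nonneg (by linarith [hs0.trans_le hs.1]) (Real.exp_pos _).le
  · exact X.one_le_A hk2 (hs0.trans_le hs.1).le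
  · exact X.a_hasDeriv hk2 (hs0.trans_le hs.1) (hL s ⟨hs0.trans_le hs.1, hs.2⟩).1
  · obtain ⟨l1, l2⟩ := hL s ⟨hs0.trans_le hs.1, hs.2⟩
    refine (X.A_hasDeriv hk2 (hs0.trans_le hs.1) l1 l2).congr_deriv ?_
    have hl : 29/12 + X.A s - X.a s / 2 + X.e s = X.σ s / X.ρ s := by unfold e; ring
    rw [hl]
    have : X.ρ s ≠ 0 := (Real.exp_pos _).ne'
    have := (hs0.trans_le hs.1).ne'
    unfold a qe
    field_simp
  · obtain ⟨l1, l2⟩ := hL s ⟨hs0.trans_le hs.1, hs.2⟩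
    exact X.e_hasDeriv hk2 (hs0.trans_le hs.1) l1 l2

lemma L_bound (hk : 9 ≤ k) {t : ℝ} (ht : 0 ≤ t)
    (hL : ∀ s ∈ Icc 0 t, L1 k X.p X.v s ≤ 2 ∧ L2 k X.p X.v s ≤ 2) :
    L1 k X.p X.v t ≤ 0 ∧ L2 k X.p X.v t ≤ Real.log 3 := by
  have hk2 : 2 ≤ k := by omega
  have hk9 : (9:ℝ) ≤ k := by exact_mod_cast hk
  have ratio : ∀ s ∈ Ioc 0 t, X.σ s ≤ 6 * X.ρ s := by
    intro s hs
    obtain ⟨b1, b2, b3⟩ := X.box_at hk hs.1
      (fun r hr => hL r ⟨hr.1.le, hr.2.trans hs.2⟩)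
    have hρ : 0 < X.ρ s := Real.exp_pos _
    have : 0 ≤ X.a s := mul_nonneg (by linarith [hs.1]) hρ.le
    rw [← div_le_iff₀ hρ]
    unfold e at b3
    linarith
  have mono : MonotoneOn (fun s => X.v s + 6 * X.p s) (Icc 0 t) :=
    monotoneOn_of_hasDerivWithinAt_nonneg (convex_Icc _ _)
      (by have := X.p_cont; have := X.v_cont; fun_prop)
      (fun s _ => ((X.v_deriv s).add ((X.p_deriv s).const_mul 6)).hasDerivWithinAt)
      (fun s hs => by
        rw [interior_Icc] at hs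
        obtain ⟨l1, l2⟩ := hL s ⟨hs.1.le, hs.2.le⟩
        rw [cexp_eq l1, cexp_eq l2]
        have h : X.σ s ≤ 6 * X.ρ s := ratio s ⟨hs.1, hs.2.le⟩
        unfold σ ρ at h
        linarith)
  have hv := mono (left_mem_Icc.2 ht) (right_mem_Icc.2 ht) ht
  simp only [X.p_zero, X.v_zero] at hv
  have hp : 0 ≤ X.p t := X.p_zero ▸ X.p_mono ht
  have h1 : L1 k X.p X.v t ≤ -Real.log 2 := by
    have hb := Real.log_le_log (X.B_pos hk2 t) (X.B_le hk2 ht)
    rw [X.log_rel hk2, S1, Real.log_exp] at hb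
    have hq := qe_le hk
    have hq0 := qe_pos (k := k)
    by_contra hc
    have := mul_pos (by linarith : (0:ℝ) < k) (by linarith : 0 < L1 k X.p X.v t + Real.log 2)
    nlinarith [mul_le_mul_of_nonneg_left (by linarith : -X.v t ≤ 6 * X.p t) hq0.le,
      mul_le_mul_of_nonneg_right hq (by linarith : 0 ≤ 6 * X.p t),
      mul_le_mul_of_nonneg_right hk9 hp]
  have l2 : 0 < Real.log 2 := Real.log_pos (by norm_num)
  refine ⟨by linarith, ?_⟩
  have hσ3 : X.σ t ≤ 3 := by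
    rcases ht.eq_or_lt with h | h
    · subst h
      have h2 := X.logC 0
      have hC0 : Real.log (X.C 0) < Real.log 2 := by
        apply Real.log_lt_log (X.C_pos hk2 0)
        unfold C
        rw [avg_zero hk2, S2, X.v_zero]
        simp only [mul_zero, Real.exp_zero, one_mul]
        field_simp
        linarith
      have h4 : Real.log (X.B 0) = 0 := by
        have : X.B 0 = 1 := by
          unfold B
          rw [avg_zero hk2, S1, X.p_zero, X.v_zero]
          simp only [mul_zero, sub_zero, Real.exp_zero]; field_simp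
        rw [this, Real.log_one]
      rw [X.log_rel hk2, X.p_zero] at h4
      have h3 : L1 k X.p X.v 0 = -Real.log 2 := by
        have : (k:ℝ) ≠ 0 := by positivity
        rcases mul_eq_zero.1 h4 with h | h <;> [exact absurd h this; linarith]
      rw [h3, X.p_zero, X.v_zero] at h2
      unfold σ
      calc _ ≤ Real.exp (0:ℝ) := Real.exp_le_exp.2 (by linarith)
        _ ≤ 3 := by simp
    · have h3 : X.ρ t ≤ 1/2 := by
        calc X.ρ t ≤ Real.exp (-Real.log 2) := Real.exp_le_exp.2 h1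
          _ = 1/2 := by rw [Real.exp_neg, Real.exp_log two_pos]; norm_num
      linarith [ratio t ⟨h, le_rfl⟩]
  rw [← Real.log_exp (L2 k X.p X.v t)]
  exact Real.log_le_log (Real.exp_pos _) hσ3

theorem L_lt_two (hk : 9 ≤ k) {s : ℝ} (hs : 0 ≤ s) :
    L1 k X.p X.v s < 2 ∧ L2 k X.p X.v s < 2 := by
  have hk2 : 2 ≤ k := by omega
  have c1 := X.L1_cont hk2
  have c2 := X.L2_cont hk2
  have h3 : Real.log 3 < 2 := by
    rw [Real.log_lt_iff_lt_exp (by norm_num)]
    have h1 := Real.add_one_le_exp (1:ℝ)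
    have : Real.exp 2 = Real.exp 1 * Real.exp 1 := by rw [← Real.exp_add]; norm_num
    nlinarith
  by_contra hne
  set T := {t ∈ Icc (0:ℝ) s | ¬ (L1 k X.p X.v t < 2 ∧ L2 k X.p X.v t < 2)}
  have hT : IsCompact T := by
    apply isCompact_Icc.inter_right
    exact IsOpen.isClosed_compl ((isOpen_lt c1 continuous_const).inter
      (isOpen_lt c2 continuous_const))
  obtain ⟨t0, ⟨ht0, hbad⟩, hmin⟩ := hT.exists_isLeast ⟨s, ⟨hs, le_rfl⟩, hne⟩
  have good : ∀ r ∈ Ico 0 t0, L1 k X.p X.v r < 2 ∧ L2 k X.p X.v r < 2 := by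
    intro r hr
    by_contra h
    exact absurd (hmin ⟨⟨hr.1, hr.2.le.trans ht0.2⟩, h⟩) (not_le.2 hr.2)
  rcases ht0.1.eq_or_lt with h0 | hpos
  · apply hbad
    subst h0
    have hB : Real.log (X.B 0) = 0 := by
      have : X.B 0 = 1 := by
        unfold B
        rw [avg_zero hk2, S1, X.p_zero, X.v_zero]
        simp only [mul_zero, sub_zero, Real.exp_zero]; field_simp
      rw [this, Real.log_one]
    rw [X.log_rel hk2, X.p_zero] at hB
    have h1 : L1 k X.p X.v 0 = -Real.log 2 := by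
      have : (k:ℝ) ≠ 0 := by positivity
      rcases mul_eq_zero.1 hB with h | h <;> [exact absurd h this; linarith]
    have h2 := X.logC 0
    have hk9 : (9:ℝ) ≤ k := by exact_mod_cast hk
    have hC0 : Real.log (X.C 0) < Real.log 2 := by
      apply Real.log_lt_log (X.C_pos hk2 0)
      unfold C
      rw [avg_zero hk2, S2, X.v_zero]
      simp only [mul_zero, Real.exp_zero, one_mul]
      field_simp
      linarith
    have : 0 < Real.log 2 := Real.log_pos (by norm_num)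
    rw [h1, X.p_zero, X.v_zero] at h2
    exact ⟨by rw [h1]; linarith, by linarith⟩
  · apply hbad
    have hne' : (𝓝[<] t0).NeBot := inferInstance
    have lim : ∀ᶠ r in 𝓝[<] t0, L1 k X.p X.v r ≤ 0 ∧ L2 k X.p X.v r ≤ Real.log 3 := by
      filter_upwards [Ico_mem_nhdsLT hpos] with r hr
      exact X.L_bound hk hr.1 fun u hu =>
        ⟨(good u ⟨hu.1, hu.2.trans_lt hr.2⟩).1.le, (good u ⟨hu.1, hu.2.trans_lt hr.2⟩).2.le⟩
    have a1 := le_of_tendsto (c1.continuousWithinAt (s := Iio t0) (x := t0))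
      (lim.mono fun r h => h.1)
    have a2 := le_of_tendsto (c2.continuousWithinAt (s := Iio t0) (x := t0))
      (lim.mono fun r h => h.2)
    exact ⟨by linarith, by linarith⟩

end Sol

end Vale.Agent.P252
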